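import Mathlib
import Crest.Prelude.Def_Complexity

-- ▼ part PVb/Lib/PT/Machine
section

/-!
# A tiny structured language on four bit stacks, compiled to `Turing.TM2`

`Prog` is a structured language over four stacks of bits; `Exec p s s' n` says that `p` started in
`s` ends in `s'` within `n` steps.  `reach_of_exec` simulates it on a `TM2` machine.
-/

namespace Crest.Agent.Lib.PT

open Turing

/-- The four bit stacks. -/
inductive R : Type
  | m | a | b | c
  deriving DecidableEq

instance : Fintype R := ⟨{R.m, R.a, R.b, R.c}, by intro x; cases x <;> simp⟩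

/-- Contents of the four stacks. -/
structure St : Type where
  m : List Bool
  a : List Bool
  b : List Bool
  c : List Bool

/-- Read a stack. -/
def St.get (s : St) : R → List Bool
  | .m => s.m
  | .a => s.a
  | .b => s.b
  | .c => s.c

/-- Overwrite a stack. -/
def St.set (s : St) : R → List Bool → St
  | .m, l => ⟨l, s.a, s.b, s.c⟩
  | .a, l => ⟨s.m, l, s.b, s.c⟩
  | .b, l => ⟨s.m, s.a, l, s.c⟩
  | .c, l => ⟨s.m, s.a, s.b, l⟩

@[simp] theorem St.get_m (s : St) : s.get .m = s.m := rfl
@[simp] theorem St.get_a (s : St) : s.get .a = s.a := rfl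
@[simp] theorem St.get_b (s : St) : s.get .b = s.b := rfl
@[simp] theorem St.get_c (s : St) : s.get .c = s.c := rfl
@[simp] theorem St.set_m (s : St) (l : List Bool) : s.set .m l = ⟨l, s.a, s.b, s.c⟩ := rfl
@[simp] theorem St.set_a (s : St) (l : List Bool) : s.set .a l = ⟨s.m, l, s.b, s.c⟩ := rfl
@[simp] theorem St.set_b (s : St) (l : List Bool) : s.set .b l = ⟨s.m, s.a, l, s.c⟩ := rfl
@[simp] theorem St.set_c (s : St) (l : List Bool) : s.set .c l = ⟨s.m, s.a, s.b, l⟩ := rfl

/-- Total number of bits stored. -/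
def St.tot (s : St) : ℕ := s.m.length + s.a.length + s.b.length + s.c.length

theorem St.tot_set (s : St) (r : R) (l : List Bool) :
    (s.set r l).tot + (s.get r).length = s.tot + l.length := by
  cases r <;> simp [St.tot] <;> omega

/-- Structured programs. -/
inductive Prog : Type
  | skip
  | push (r : R) (x : Bool)
  | seq (p q : Prog)
  | case (r : R) (pe pf pt : Prog)
  | loop (r : R) (pf pt : Prog)
  | wh (r : R) (p : Prog)

/-- Big-step semantics with an upper bound on the number of steps. -/
inductive Exec : Prog → St → St → ℕ → Prop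
  | mono {p s s' n n'} : Exec p s s' n → n ≤ n' → Exec p s s' n'
  | skip (s) : Exec .skip s s 1
  | push (r x s) : Exec (.push r x) s (s.set r (x :: s.get r)) 1
  | seq {p q s s' s'' n k} : Exec p s s' n → Exec q s' s'' k → Exec (.seq p q) s s'' (n + k)
  | caseE {r pe pf pt s s' n} : s.get r = [] → Exec pe s s' n →
      Exec (.case r pe pf pt) s s' (n + 1)
  | caseF {r pe pf pt s s' n l} : s.get r = false :: l → Exec pf (s.set r l) s' n →
      Exec (.case r pe pf pt) s s' (n + 1)
  | caseT {r pe pf pt s s' n l} : s.get r = true :: l → Exec pt (s.set r l) s' n →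
      Exec (.case r pe pf pt) s s' (n + 1)
  | loopE {r pf pt s} : s.get r = [] → Exec (.loop r pf pt) s s 1
  | loopF {r pf pt s s' s'' n k l} : s.get r = false :: l → Exec pf (s.set r l) s' n →
      Exec (.loop r pf pt) s' s'' k → Exec (.loop r pf pt) s s'' (n + k + 1)
  | loopT {r pf pt s s' s'' n k l} : s.get r = true :: l → Exec pt (s.set r l) s' n →
      Exec (.loop r pf pt) s' s'' k → Exec (.loop r pf pt) s s'' (n + k + 1)
  | whF {r p s l} : s.get r = false :: l → Exec (.wh r p) s (s.set r l) 1
  | whT {r p s s' s'' n k l} : s.get r = true :: l → Exec p (s.set r l) s' n →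
      Exec (.wh r p) s' s'' k → Exec (.wh r p) s s'' (n + k + 1)

theorem Exec.tot_le {p s s' n} (h : Exec p s s' n) : s'.tot ≤ s.tot + n := by
  induction h with
  | mono _ hn ih => omega
  | skip s => omega
  | push r x s => have := s.tot_set r (x :: s.get r); simp at this; omega
  | seq _ _ ih1 ih2 => omega
  | caseE _ _ ih => omega
  | @caseF r _ _ _ s _ _ l h _ ih => have := s.tot_set r l; rw [h] at this; simp at this; omega
  | @caseT r _ _ _ s _ _ l h _ ih => have := s.tot_set r l; rw [h] at this; simp at this; omega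
  | loopE _ => omega
  | @loopF r _ _ s _ _ _ _ l h _ _ ih1 ih2 =>
    have := s.tot_set r l; rw [h] at this; simp at this; omega
  | @loopT r _ _ s _ _ _ _ l h _ _ ih1 ih2 =>
    have := s.tot_set r l; rw [h] at this; simp at this; omega
  | @whF r _ s l h => have := s.tot_set r l; rw [h] at this; simp at this; omega
  | @whT r _ s _ _ _ _ l h _ _ ih1 ih2 =>
    have := s.tot_set r l; rw [h] at this; simp at this; omega

/-- Program points. -/
def Lbl : Prog → Type
  | .skip => Unit
  | .push _ _ => Unit
  | .seq p q => Lbl p ⊕ Lbl q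
  | .case _ p q w => Unit ⊕ (Lbl p ⊕ (Lbl q ⊕ Lbl w))
  | .loop _ p q => Unit ⊕ (Lbl p ⊕ Lbl q)
  | .wh _ p => Unit ⊕ Lbl p

/-- Finitely many program points. -/
@[reducible] def lblFintype : (p : Prog) → Fintype (Lbl p)
  | .skip => inferInstanceAs (Fintype Unit)
  | .push _ _ => inferInstanceAs (Fintype Unit)
  | .seq p q => @instFintypeSum _ _ (lblFintype p) (lblFintype q)
  | .case _ p q w => @instFintypeSum Unit _ _
      (@instFintypeSum _ _ (lblFintype p) (@instFintypeSum _ _ (lblFintype q) (lblFintype w)))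
  | .loop _ p q => @instFintypeSum Unit _ _ (@instFintypeSum _ _ (lblFintype p) (lblFintype q))
  | .wh _ p => @instFintypeSum Unit _ _ (lblFintype p)

/-- Entry point. -/
def entry : (p : Prog) → Lbl p
  | .skip => ()
  | .push _ _ => ()
  | .seq p _ => Sum.inl (entry p)
  | .case _ _ _ _ => Sum.inl ()
  | .loop _ _ _ => Sum.inl ()
  | .wh _ _ => Sum.inl ()

section compile

variable {G : Type} {Λ : Type}

/-- Stack alphabets: the input stack has alphabet `G`, the others bits. -/
@[reducible] def Gam (G : Type) : Option R → Type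
  | none => G
  | some _ => Bool

/-- Internal state. -/
abbrev Sig (G : Type) : Type := Option Bool × Option G

/-- Statements of the target machine. -/
abbrev TStmt (G Λ : Type) := TM2.Stmt (Gam G) Λ (Sig G)

/-- Configurations of the target machine. -/
abbrev TCfg (G Λ : Type) := TM2.Cfg (Gam G) Λ (Sig G)

/-- The stacks of the target machine. -/
def toStk (i : List G) (s : St) : ∀ k, List (Gam G k)
  | none => i
  | some r => s.get r

theorem update_toStk (i : List G) (s : St) (r : R) (l : List Bool) :
    Function.update (toStk i s) (some r) l = toStk i (s.set r l) := by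
  funext k
  rcases k with _ | r'
  · rw [Function.update_of_ne (by simp)]; rfl
  · by_cases h : r' = r
    · subst h; rw [Function.update_self]; cases r' <;> rfl
    · rw [Function.update_of_ne (by simpa using h)]
      cases r <;> cases r' <;> first | rfl | exact absurd rfl h

theorem update_toStk_none (i i' : List G) (s : St) :
    Function.update (toStk i s) none i' = toStk i' s := by
  funext k
  rcases k with _ | r'
  · rw [Function.update_self]; rfl
  · rw [Function.update_of_ne (by simp)]; rfl

/-- Jump or halt. -/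
def jmp : Option Λ → TStmt G Λ
  | none => .halt
  | some l => .goto fun _ => l

theorem stepAux_jmp (o : Option Λ) (v : Sig G) (S : ∀ k, List (Gam G k)) :
    TM2.stepAux (jmp o : TStmt G Λ) v S = ⟨o, v, S⟩ := by
  cases o <;> rfl

/-- Pop a bit stack and jump according to the result. -/
def pop3 (r : R) (o₁ o₂ o₃ : Option Λ) : TStmt G Λ :=
  .pop (some r) (fun _ o => ((o : Option Bool), none))
    (.branch (fun v => v.1.isNone) (.load (fun _ => (none, none)) (jmp o₁))
      (.branch (fun v => v.1 == some false) (.load (fun _ => (none, none)) (jmp o₂))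
        (.load (fun _ => (none, none)) (jmp o₃))))

theorem pop3_nil (r : R) (o₁ o₂ o₃ : Option Λ) (v : Sig G) (i : List G) (s : St)
    (h : s.get r = []) :
    TM2.stepAux (pop3 r o₁ o₂ o₃ : TStmt G Λ) v (toStk i s) = ⟨o₁, (none, none), toStk i s⟩ := by
  have h1 : toStk i s (some r) = ([] : List Bool) := h
  have h2 : Function.update (toStk i s) (some r) ([] : List Bool) = toStk i s := by
    rw [← h1]; exact Function.update_eq_self _ _
  simp only [pop3, TM2.stepAux, h1]
  erw [List.head?_nil, List.tail_nil, h2]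
  simp only [stepAux_jmp]
  rfl

theorem pop3_false (r : R) (o₁ o₂ o₃ : Option Λ) (v : Sig G) (i : List G) (s : St)
    (l : List Bool) (h : s.get r = false :: l) :
    TM2.stepAux (pop3 r o₁ o₂ o₃ : TStmt G Λ) v (toStk i s) =
      ⟨o₂, (none, none), toStk i (s.set r l)⟩ := by
  have h1 : toStk i s (some r) = (false :: l : List Bool) := h
  simp only [pop3, TM2.stepAux, h1]
  erw [List.head?_cons, List.tail_cons, update_toStk]
  simp only [stepAux_jmp]
  rfl

theorem pop3_true (r : R) (o₁ o₂ o₃ : Option Λ) (v : Sig G) (i : List G) (s : St)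
    (l : List Bool) (h : s.get r = true :: l) :
    TM2.stepAux (pop3 r o₁ o₂ o₃ : TStmt G Λ) v (toStk i s) =
      ⟨o₃, (none, none), toStk i (s.set r l)⟩ := by
  have h1 : toStk i s (some r) = (true :: l : List Bool) := h
  simp only [pop3, TM2.stepAux, h1]
  erw [List.head?_cons, List.tail_cons, update_toStk]
  simp only [stepAux_jmp]
  rfl

/-- Push a bit. -/
def pushS (r : R) (x : Bool) (q : TStmt G Λ) : TStmt G Λ :=
  .push (some r) (fun _ => x) q

theorem stepAux_pushS (r : R) (x : Bool) (q : TStmt G Λ) (v : Sig G) (i : List G) (s : St) :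
    TM2.stepAux (pushS r x q) v (toStk i s) =
      TM2.stepAux q v (toStk i (s.set r (x :: s.get r))) := by
  simp only [pushS, TM2.stepAux]
  erw [update_toStk]
  rfl

/-- The compiled code at each program point. -/
def code : (p : Prog) → (Lbl p → Λ) → Option Λ → Lbl p → TStmt G Λ
  | .skip, _, nxt, _ => jmp nxt
  | .push r x, _, nxt, _ => pushS r x (jmp nxt)
  | .seq p q, emb, _, Sum.inl l =>
      code p (fun l => emb (Sum.inl l)) (some (emb (Sum.inr (entry q)))) l
  | .seq _ q, emb, nxt, Sum.inr l => code q (fun l => emb (Sum.inr l)) nxt l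
  | .case r p q w, emb, _, Sum.inl _ =>
      pop3 r (some (emb (Sum.inr (Sum.inl (entry p)))))
        (some (emb (Sum.inr (Sum.inr (Sum.inl (entry q))))))
        (some (emb (Sum.inr (Sum.inr (Sum.inr (entry w))))))
  | .case _ p _ _, emb, nxt, Sum.inr (Sum.inl l) =>
      code p (fun l => emb (Sum.inr (Sum.inl l))) nxt l
  | .case _ _ q _, emb, nxt, Sum.inr (Sum.inr (Sum.inl l)) =>
      code q (fun l => emb (Sum.inr (Sum.inr (Sum.inl l)))) nxt l
  | .case _ _ _ w, emb, nxt, Sum.inr (Sum.inr (Sum.inr l)) =>
      code w (fun l => emb (Sum.inr (Sum.inr (Sum.inr l)))) nxt l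
  | .loop r p q, emb, nxt, Sum.inl _ =>
      pop3 r nxt (some (emb (Sum.inr (Sum.inl (entry p)))))
        (some (emb (Sum.inr (Sum.inr (entry q)))))
  | .loop _ p _, emb, _, Sum.inr (Sum.inl l) =>
      code p (fun l => emb (Sum.inr (Sum.inl l))) (some (emb (Sum.inl ()))) l
  | .loop _ _ q, emb, _, Sum.inr (Sum.inr l) =>
      code q (fun l => emb (Sum.inr (Sum.inr l))) (some (emb (Sum.inl ()))) l
  | .wh r p, emb, nxt, Sum.inl _ => pop3 r nxt nxt (some (emb (Sum.inr (entry p))))
  | .wh _ p, emb, _, Sum.inr l => code p (fun l => emb (Sum.inr l)) (some (emb (Sum.inl ()))) l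

/-- `c'` is reached from `c` in at most `n` steps. -/
def Reach (M : Λ → TStmt G Λ) (n : ℕ) (c c' : TCfg G Λ) : Prop :=
  ∃ k ≤ n, (flip bind (TM2.step M))^[k] (some c) = some c'

theorem Reach.mono {M : Λ → TStmt G Λ} {n n' : ℕ} {c c' : TCfg G Λ} (h : Reach M n c c')
    (hn : n ≤ n') : Reach M n' c c' := by
  obtain ⟨k, hk, e⟩ := h
  exact ⟨k, hk.trans hn, e⟩

theorem Reach.trans {M : Λ → TStmt G Λ} {n n' : ℕ} {c c' c'' : TCfg G Λ} (h : Reach M n c c')
    (h' : Reach M n' c' c'') : Reach M (n + n') c c'' := by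
  obtain ⟨k, hk, e⟩ := h
  obtain ⟨k', hk', e'⟩ := h'
  exact ⟨k' + k, by omega, by rw [Function.iterate_add_apply, e, e']⟩

theorem Reach.one {M : Λ → TStmt G Λ} {l : Λ} {v : Sig G} {S : ∀ k, List (Gam G k)}
    {c' : TCfg G Λ} (h : TM2.stepAux (M l) v S = c') : Reach M 1 ⟨some l, v, S⟩ c' :=
  ⟨1, le_rfl, by subst h; rfl⟩

theorem reach_of_exec (M : Λ → TStmt G Λ) (i : List G) {p s s' n} (h : Exec p s s' n) :
    ∀ (emb : Lbl p → Λ) (nxt : Option Λ), (∀ l, M (emb l) = code p emb nxt l) →
      Reach M n ⟨some (emb (entry p)), (none, none), toStk i s⟩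
        ⟨nxt, (none, none), toStk i s'⟩ := by
  induction h with
  | mono _ hn ih => exact fun emb nxt hM => (ih emb nxt hM).mono hn
  | skip s =>
    intro emb nxt hM
    exact Reach.one (by rw [hM]; exact stepAux_jmp _ _ _)
  | push r x s =>
    intro emb nxt hM
    exact Reach.one (by rw [hM]; simp only [code]; rw [stepAux_pushS, stepAux_jmp])
  | seq _ _ ih1 ih2 =>
    intro emb nxt hM
    exact (ih1 _ _ fun l => hM (Sum.inl l)).trans (ih2 _ _ fun l => hM (Sum.inr l))
  | caseE h _ ih =>
    intro emb nxt hM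
    rw [Nat.add_comm]
    refine Reach.trans (Reach.one ?_) (ih _ _ fun l => hM (Sum.inr (Sum.inl l)))
    rw [hM]; exact pop3_nil _ _ _ _ _ _ _ h
  | caseF h _ ih =>
    intro emb nxt hM
    rw [Nat.add_comm]
    refine Reach.trans (Reach.one ?_) (ih _ _ fun l => hM (Sum.inr (Sum.inr (Sum.inl l))))
    rw [hM]; exact pop3_false _ _ _ _ _ _ _ _ h
  | caseT h _ ih =>
    intro emb nxt hM
    rw [Nat.add_comm]
    refine Reach.trans (Reach.one ?_) (ih _ _ fun l => hM (Sum.inr (Sum.inr (Sum.inr l))))
    rw [hM]; exact pop3_true _ _ _ _ _ _ _ _ h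
  | loopE h =>
    intro emb nxt hM
    exact Reach.one (by rw [hM]; exact pop3_nil _ _ _ _ _ _ _ h)
  | loopF h _ _ ih1 ih2 =>
    intro emb nxt hM
    rw [Nat.add_comm]
    refine Reach.trans (Reach.one ?_)
      ((ih1 _ _ fun l => hM (Sum.inr (Sum.inl l))).trans (ih2 emb nxt hM))
    rw [hM]; exact pop3_false _ _ _ _ _ _ _ _ h
  | loopT h _ _ ih1 ih2 =>
    intro emb nxt hM
    rw [Nat.add_comm]
    refine Reach.trans (Reach.one ?_)
      ((ih1 _ _ fun l => hM (Sum.inr (Sum.inr l))).trans (ih2 emb nxt hM))
    rw [hM]; exact pop3_true _ _ _ _ _ _ _ _ h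
  | whF h =>
    intro emb nxt hM
    exact Reach.one (by rw [hM]; exact pop3_false _ _ _ _ _ _ _ _ h)
  | whT h _ _ ih1 ih2 =>
    intro emb nxt hM
    rw [Nat.add_comm]
    refine Reach.trans (Reach.one ?_)
      ((ih1 _ _ fun l => hM (Sum.inr l)).trans (ih2 emb nxt hM))
    rw [hM]; exact pop3_true _ _ _ _ _ _ _ _ h

end compile

end Crest.Agent.Lib.PT
private theorem rz_917674a3d8 : type_of% @_root_.Crest.Agent.Lib.PT.code.eq_def := @_root_.Crest.Agent.Lib.PT.code.eq_def -- L234
private theorem rz_98f330f2d3 : type_of% @_root_.Crest.Agent.Lib.PT.code.eq_1 := @_root_.Crest.Agent.Lib.PT.code.eq_1 -- L234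
end

-- ▼ part PVb/Lib/PT/Tree
section

/-!
# Binary trees as values, and closure properties of timed computations on them

`Cmp X Y T` : one program turns the code of `X a` on top of the main stack into the code of `Y a`
within `T a` steps, for every index `a`.
-/

namespace Crest.Agent.Lib.PT

/-- The universal value type: binary trees. -/
inductive V : Type
  | nil
  | node (l r : V)
  deriving DecidableEq

namespace V

/-- Prefix code of a tree. -/
def bits : V → List Bool
  | nil => [false]
  | node a b => true :: (a.bits ++ b.bits)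

/-- Length of the prefix code. -/
def size : V → ℕ
  | nil => 1
  | node a b => a.size + b.size + 1

/-- Left subtree. -/
def left : V → V
  | nil => nil
  | node a _ => a

/-- Right subtree. -/
def right : V → V
  | nil => nil
  | node _ b => b

/-- Booleans as trees. -/
def ofBool : Bool → V
  | false => nil
  | true => node nil nil

@[simp] theorem bits_nil : nil.bits = [false] := rfl
@[simp] theorem bits_node (a b : V) : (node a b).bits = true :: (a.bits ++ b.bits) := rfl
@[simp] theorem size_nil : nil.size = 1 := rfl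
@[simp] theorem size_node (a b : V) : (node a b).size = a.size + b.size + 1 := rfl
@[simp] theorem left_node (a b : V) : (node a b).left = a := rfl
@[simp] theorem right_node (a b : V) : (node a b).right = b := rfl
@[simp] theorem left_nil : nil.left = nil := rfl
@[simp] theorem right_nil : nil.right = nil := rfl

@[simp] theorem length_bits (v : V) : v.bits.length = v.size := by
  induction v with
  | nil => rfl
  | node a b iha ihb => simp [iha, ihb]

theorem size_pos (v : V) : 0 < v.size := by cases v <;> simp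




theorem size_ofBool_le (b : Bool) : (ofBool b).size ≤ 3 := by cases b <;> simp [ofBool]

end V

/-! ### Primitive programs -/

/-- Move all of stack `r` onto stack `r'` (reversing it). -/
def pour (r r' : R) : Prog := .loop r (.push r' false) (.push r' true)

theorem exec_pour (r r' : R) (h : r ≠ r') (l : List Bool) : ∀ s : St, s.get r = l →
    Exec (pour r r') s ((s.set r []).set r' (l.reverse ++ s.get r')) (2 * l.length + 1) := by
  induction l with
  | nil =>
    intro s hs
    have : (s.set r []).set r' (([] : List Bool).reverse ++ s.get r') = s := by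
      cases r <;> cases r' <;> simp_all <;> cases s <;> simp_all
    rw [this]; exact Exec.loopE hs
  | cons x l ih =>
    intro s hs
    have h1 := ih ((s.set r l).set r' (x :: (s.set r l).get r'))
      (by cases r <;> cases r' <;> simp_all)
    have e : ((((s.set r l).set r' (x :: (s.set r l).get r')).set r []).set r'
        (l.reverse ++ ((s.set r l).set r' (x :: (s.set r l).get r')).get r')) =
        (s.set r []).set r' ((x :: l).reverse ++ s.get r') := by
      cases r <;> cases r' <;> simp_all
    rw [e] at h1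
    cases x
    · exact (Exec.loopF hs (Exec.push _ _ _) h1).mono (by simp; omega)
    · exact (Exec.loopT hs (Exec.push _ _ _) h1).mono (by simp; omega)

/-- Move stack `a` onto both `m` and `b`. -/
def pour2 : Prog :=
  .loop .a (.seq (.push .m false) (.push .b false)) (.seq (.push .m true) (.push .b true))

theorem exec_pour2 (l : List Bool) : ∀ m b c : List Bool,
    Exec pour2 ⟨m, l, b, c⟩ ⟨l.reverse ++ m, [], l.reverse ++ b, c⟩ (3 * l.length + 1) := by
  induction l with
  | nil => intro m b c; exact Exec.loopE rfl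
  | cons x l ih =>
    intro m b c
    have h1 := ih (x :: m) (x :: b) c
    rw [List.reverse_cons, List.append_assoc, List.append_assoc]
    cases x
    · refine Exec.mono (Exec.loopF rfl (Exec.seq (Exec.push _ _ _) (Exec.push _ _ _)) h1) ?_
      simp; omega
    · refine Exec.mono (Exec.loopT rfl (Exec.seq (Exec.push _ _ _) (Exec.push _ _ _)) h1) ?_
      simp; omega

/-- Empty stack `a`. -/
def clearA : Prog := .loop .a .skip .skip

theorem exec_clearA (l : List Bool) : ∀ m b c : List Bool,
    Exec clearA ⟨m, l, b, c⟩ ⟨m, [], b, c⟩ (2 * l.length + 1) := by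
  induction l with
  | nil => intro m b c; exact Exec.loopE rfl
  | cons x l ih =>
    intro m b c
    cases x
    · refine Exec.mono (Exec.loopF rfl (Exec.skip _) (ih m b c)) ?_
      simp; omega
    · refine Exec.mono (Exec.loopT rfl (Exec.skip _) (ih m b c)) ?_
      simp; omega

/-- The loop that moves one tree from `m` to `a`. -/
def scanW : Prog :=
  .wh .c (.case .m .skip (.push .a false)
    (.seq (.push .a true) (.seq (.push .c true) (.push .c true))))

theorem exec_scanW (v : V) : ∀ (m a b c : List Bool) (s' : St) (n : ℕ),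
    Exec scanW ⟨m, v.bits.reverse ++ a, b, c⟩ s' n →
    Exec scanW ⟨v.bits ++ m, a, b, true :: c⟩ s' (n + 5 * v.size) := by
  induction v with
  | nil =>
    intro m a b c s' n h
    refine Exec.mono (Exec.whT rfl (Exec.caseF rfl (Exec.push _ _ _)) h) ?_
    simp; omega
  | node x y ihx ihy =>
    intro m a b c s' n h
    have h1 := ihy m (x.bits.reverse ++ true :: a) b c s' n (by simpa using h)
    have h2 := ihx (y.bits ++ m) (true :: a) b (true :: c) s' _ h1
    rw [V.bits_node, List.cons_append, List.append_assoc]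
    refine Exec.mono (Exec.whT rfl (Exec.caseT rfl (Exec.seq (Exec.push _ _ _)
      (Exec.seq (Exec.push _ _ _) (Exec.push _ _ _)))) h2) ?_
    simp; omega

/-- Move one tree from `m` to `a` (reversed). -/
def scan : Prog := .seq (.push .c false) (.seq (.push .c true) scanW)

theorem exec_scan (v : V) (m a b c : List Bool) :
    Exec scan ⟨v.bits ++ m, a, b, c⟩ ⟨m, v.bits.reverse ++ a, b, c⟩ (5 * v.size + 3) :=
  (Exec.seq (Exec.push _ _ _) (Exec.seq (Exec.push _ _ _)
    (exec_scanW v m a b (false :: c) _ _ (Exec.whF rfl)))).mono (by omega)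

/-- `p` replaces the top segment `u` of the main stack by `w` within `t` steps. -/
def Run (p : Prog) (u w : List Bool) (t : ℕ) : Prop :=
  ∀ rest, Exec p ⟨u ++ rest, [], [], []⟩ ⟨w ++ rest, [], [], []⟩ t

theorem Run.mono {p u w t t'} (h : Run p u w t) (ht : t ≤ t') : Run p u w t' :=
  fun rest => (h rest).mono ht

theorem Run.frame {p u w t} (h : Run p u w t) (z : List Bool) : Run p (u ++ z) (w ++ z) t :=
  fun rest => by rw [List.append_assoc, List.append_assoc]; exact h _

theorem Run.seq {p q u w z t t'} (h : Run p u w t) (h' : Run q w z t') :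
    Run (.seq p q) u z (t + t') :=
  fun rest => Exec.seq (h rest) (h' rest)

theorem Run.skip (u : List Bool) : Run .skip u u 1 := fun _ => Exec.skip _

theorem Run.push (x : Bool) (u : List Bool) : Run (.push .m x) u (x :: u) 1 :=
  fun _ => Exec.push _ _ _

theorem Run.caseF {pe pf pt u w t} (h : Run pf u w t) :
    Run (.case .m pe pf pt) (false :: u) w (t + 1) :=
  fun rest => Exec.caseF rfl (h rest)

theorem Run.caseT {pe pf pt u w t} (h : Run pt u w t) :
    Run (.case .m pe pf pt) (true :: u) w (t + 1) :=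
  fun rest => Exec.caseT rfl (h rest)

theorem Run.whF (p : Prog) (u : List Bool) : Run (.wh .m p) (false :: u) u 1 :=
  fun _ => Exec.whF rfl

theorem Run.whT {p u w z t t'} (h : Run p u w t) (h' : Run (.wh .m p) w z t') :
    Run (.wh .m p) (true :: u) z (t + t' + 1) :=
  fun rest => Exec.whT rfl (h rest) (h' rest)

theorem Run.length_le {p u w t} (h : Run p u w t) : w.length ≤ u.length + t := by
  have := (h []).tot_le
  simpa [St.tot] using this

/-- Pop one bit. -/
def popP : Prog := .case .m .skip .skip .skip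

theorem run_pop (x : Bool) (u : List Bool) : Run popP (x :: u) u 2 := by
  cases x
  · exact Run.caseF (Run.skip u)
  · exact Run.caseT (Run.skip u)

/-- Drop the top tree. -/
def dropP : Prog := .seq scan clearA

theorem run_drop (v : V) (u : List Bool) : Run dropP (v.bits ++ u) u (7 * v.size + 4) := by
  intro rest
  rw [List.append_assoc]
  refine (Exec.seq (exec_scan v _ _ _ _) (exec_clearA _ _ _ _)).mono ?_
  simp; omega

/-- Duplicate the top tree. -/
def dupP : Prog := .seq scan (.seq pour2 (.seq (pour .b .a) (pour .a .m)))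

theorem run_dup (v : V) : Run dupP v.bits (v.bits ++ v.bits) (12 * v.size + 6) := by
  intro rest
  have h1 := exec_scan v rest [] [] []
  have h2 := exec_pour2 (v.bits.reverse ++ []) rest [] []
  have h3 := exec_pour .b .a (by decide) _
    ⟨(v.bits.reverse ++ []).reverse ++ rest, [], (v.bits.reverse ++ []).reverse ++ [], []⟩ rfl
  have h4 := exec_pour .a .m (by decide) _
    ⟨(v.bits.reverse ++ []).reverse ++ rest,
      ((v.bits.reverse ++ []).reverse ++ []).reverse ++ [], [], []⟩ rfl
  have h := Exec.seq h1 (Exec.seq h2 (Exec.seq h3 h4))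
  simp at h
  rw [List.append_assoc]
  exact h.mono (by omega)

/-- Swap the two top trees. -/
def swapP : Prog :=
  .seq scan (.seq (pour .a .b) (.seq scan (.seq (pour .b .c) (.seq (pour .c .m) (pour .a .m)))))

theorem run_swap (x y : V) :
    Run swapP (x.bits ++ y.bits) (y.bits ++ x.bits) (11 * x.size + 7 * y.size + 10) := by
  intro rest
  have h1 := exec_scan x (y.bits ++ rest) [] [] []
  have h2 := exec_pour .a .b (by decide) _ ⟨y.bits ++ rest, x.bits.reverse ++ [], [], []⟩ rfl
  have h3 := exec_scan y rest [] x.bits []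
  have h4 := exec_pour .b .c (by decide) _ ⟨rest, y.bits.reverse ++ [], x.bits, []⟩ rfl
  have h5 := exec_pour .c .m (by decide) _ ⟨rest, y.bits.reverse ++ [], [], x.bits.reverse⟩ rfl
  have h6 := exec_pour .a .m (by decide) _ ⟨x.bits ++ rest, y.bits.reverse ++ [], [], []⟩ rfl
  simp at h1 h2 h3 h4 h5 h6
  have h := Exec.seq h1 (Exec.seq h2 (Exec.seq h3 (Exec.seq h4 (Exec.seq h5 h6))))
  rw [List.append_assoc, List.append_assoc]
  exact h.mono (by omega)

/-- Push a fixed list of bits. -/
def pushL : List Bool → Prog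
  | [] => .skip
  | x :: l => .seq (pushL l) (.push .m x)

theorem run_pushL (l u : List Bool) : Run (pushL l) u (l ++ u) (l.length + 1) := by
  induction l with
  | nil => exact Run.skip u
  | cons x l ih => exact (ih.seq (Run.push x _)).mono (by simp)

/-! ### Timed computation on indexed families of trees -/

universe u v

/-- One program turns the code of `X a` into the code of `Y a` within `T a` steps. -/
def Cmp {α : Type u} (X Y : α → V) (T : α → ℕ) : Prop :=
  ∃ p : Prog, ∀ a, Run p (X a).bits (Y a).bits (T a)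

namespace Cmp

variable {α : Type u} {β : Type v} {X Y Z : α → V} {T T' : α → ℕ}

theorem mono (h : Cmp X Y T) (hT : ∀ a, T a ≤ T' a) : Cmp X Y T' := by
  obtain ⟨p, hp⟩ := h
  exact ⟨p, fun a => (hp a).mono (hT a)⟩

theorem reindex (h : Cmp X Y T) (g : β → α) :
    Cmp (fun b => X (g b)) (fun b => Y (g b)) (fun b => T (g b)) := by
  obtain ⟨p, hp⟩ := h
  exact ⟨p, fun b => hp (g b)⟩

theorem congr {X' Y' : α → V} (h : Cmp X Y T) (hX : ∀ a, X' a = X a) (hY : ∀ a, Y' a = Y a) :
    Cmp X' Y' T := by
  obtain ⟨p, hp⟩ := h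
  exact ⟨p, fun a => by rw [hX, hY]; exact hp a⟩

theorem size_le (h : Cmp X Y T) (a : α) : (Y a).size ≤ (X a).size + T a := by
  obtain ⟨p, hp⟩ := h
  simpa using (hp a).length_le

theorem refl (X : α → V) : Cmp X X (fun _ => 1) := ⟨.skip, fun _ => Run.skip _⟩

theorem const (X : α → V) (v : V) :
    Cmp X (fun _ => v) (fun a => 7 * (X a).size + v.size + 5) := by
  refine ⟨.seq dropP (pushL v.bits), fun a => ?_⟩
  have h := (run_drop (X a) []).seq (run_pushL v.bits [])
  simp at h
  exact h.mono (by simp only []; omega)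

theorem trans (h : Cmp X Y T) (h' : Cmp Y Z T') : Cmp X Z (fun a => T a + T' a) := by
  obtain ⟨p, hp⟩ := h
  obtain ⟨q, hq⟩ := h'
  exact ⟨.seq p q, fun a => (hp a).seq (hq a)⟩

theorem pair (h : Cmp X Y T) (h' : Cmp X Z T') :
    Cmp X (fun a => V.node (Y a) (Z a)) (fun a => T a + 12 * T' a + 30 * (X a).size + 17) := by
  have hs := h'.size_le
  obtain ⟨p, hp⟩ := h
  obtain ⟨q, hq⟩ := h'
  refine ⟨.seq dupP (.seq q (.seq swapP (.seq p (.push .m true)))), fun a => ?_⟩
  have := hs a
  exact ((run_dup (X a)).seq (((hq a).frame _).seq ((run_swap _ _).seq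
    (((hp a).frame _).seq (Run.push true _))))).mono (by simp only []; omega)

theorem left (X : α → V) : Cmp X (fun a => (X a).left) (fun a => 14 * (X a).size + 15) := by
  refine ⟨.case .m .skip (.push .m false) (.seq swapP dropP), fun a => ?_⟩
  simp only []
  cases X a with
  | nil => exact (Run.caseF (Run.push false [])).mono (by simp)
  | node x y =>
    exact (Run.caseT ((run_swap x y).seq (run_drop y x.bits))).mono (by simp; omega)

theorem right (X : α → V) : Cmp X (fun a => (X a).right) (fun a => 7 * (X a).size + 5) := by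
  refine ⟨.case .m .skip (.push .m false) dropP, fun a => ?_⟩
  simp only []
  cases X a with
  | nil => exact (Run.caseF (Run.push false [])).mono (by simp)
  | node x y => exact (Run.caseT (run_drop x y.bits)).mono (by simp; omega)

theorem cond {C : α → V} {T₀ T₁ : α → ℕ} (hC : Cmp X C T₀)
    (h₁ : Cmp (fun a : {a // C a = V.nil} => X a.1) (fun a => Y a.1) (fun a => T₁ a.1))
    (h₂ : Cmp (fun a : {a // C a ≠ V.nil} => X a.1) (fun a => Y a.1) (fun a => T₁ a.1)) :
    Cmp X Y (fun a => 8 * T₀ a + T₁ a + 19 * (X a).size + 15) := by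
  have hs := hC.size_le
  obtain ⟨c, hc⟩ := hC
  obtain ⟨p, hp⟩ := h₁
  obtain ⟨q, hq⟩ := h₂
  refine ⟨.seq dupP (.seq c (.case .m .skip p (.seq dropP (.seq dropP q)))), fun a => ?_⟩
  have h1 := hs a
  have h2 := (hc a).frame (X a).bits
  cases h : C a with
  | nil =>
    rw [h] at h2
    exact ((run_dup (X a)).seq (h2.seq (Run.caseF (hp ⟨a, h⟩)))).mono (by simp; omega)
  | node x y =>
    rw [h] at h2 h1
    have h3 := hq ⟨a, by rw [h]; simp⟩
    have h4 := Run.caseT (pe := .skip) (pf := p) ((run_drop x (y.bits ++ (X a).bits)).seq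
      ((run_drop y (X a).bits).seq h3))
    rw [← List.append_assoc] at h4
    exact ((run_dup (X a)).seq (h2.seq h4)).mono (by simp at h1 ⊢; omega)

theorem while_loop {σ : Type v} {S : σ → V} {cont : σ → Bool} {next : σ → σ} {Tc Tb : σ → ℕ}
    (hc : Cmp S (fun s => V.ofBool (cont s)) Tc)
    (hb : Cmp (fun s : {s // cont s = true} => S s.1) (fun s => S (next s.1)) (fun s => Tb s.1))
    (s₀ : α → σ) (N B : α → ℕ)
    (h1 : ∀ a i, i < N a → cont (next^[i] (s₀ a)) = true)
    (h2 : ∀ a, cont (next^[N a] (s₀ a)) = false)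
    (h3 : ∀ a i, i ≤ N a → Tc (next^[i] (s₀ a)) ≤ B a ∧ (S (next^[i] (s₀ a))).size ≤ B a)
    (h4 : ∀ a i, i < N a → Tb (next^[i] (s₀ a)) ≤ B a) :
    Cmp (fun a => S (s₀ a)) (fun a => S (next^[N a] (s₀ a)))
      (fun a => (N a + 1) * (14 * B a + 12)) := by
  obtain ⟨c, hc⟩ := hc
  obtain ⟨b, hb⟩ := hb
  let tst : Prog := .seq dupP c
  let W : Prog := .wh .m (.seq popP (.seq popP (.seq b tst)))
  have htst : ∀ s, Run tst (S s).bits ((V.ofBool (cont s)).bits ++ (S s).bits)
      (12 * (S s).size + 6 + Tc s) := fun s => (run_dup _).seq ((hc s).frame _)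
  have key : ∀ (n Bd : ℕ) (s : σ), (∀ i, i < n → cont (next^[i] s) = true) →
      cont (next^[n] s) = false →
      (∀ i, i ≤ n → Tc (next^[i] s) ≤ Bd ∧ (S (next^[i] s)).size ≤ Bd) →
      (∀ i, i < n → Tb (next^[i] s) ≤ Bd) →
      Run W ((V.ofBool (cont s)).bits ++ (S s).bits) (S (next^[n] s)).bits
        (n * (14 * Bd + 12) + 1) := by
    intro n
    induction n with
    | zero =>
      intro Bd s _ g2 _ _
      simp only [Function.iterate_zero, id] at g2 ⊢
      rw [g2]
      exact (Run.whF _ _).mono (by simp)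
    | succ n ih =>
      intro Bd s g1 g2 g3 g4
      have c0 : cont s = true := g1 0 (by omega)
      have ih' := ih Bd (next s) (fun i hi => g1 (i + 1) (by omega)) g2
        (fun i hi => g3 (i + 1) (by omega)) (fun i hi => g4 (i + 1) (by omega))
      have t1 := g3 1 (by omega)
      have t2 := g4 0 (by omega)
      simp only [Function.iterate_succ, Function.iterate_zero, Function.comp, id] at t1 t2
      rw [c0]
      have body := (run_pop false _).seq ((run_pop false _).seq
        ((hb ⟨s, c0⟩).seq (htst (next s))))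
      refine (Run.whT body ih').mono ?_
      simp only [Nat.succ_mul]
      omega
  refine ⟨.seq tst W, fun a => ?_⟩
  have t0 := h3 a 0 (by omega)
  simp only [Function.iterate_zero, id] at t0
  refine ((htst (s₀ a)).seq (key (N a) (B a) (s₀ a) (h1 a) (h2 a) (h3 a) (h4 a))).mono ?_
  simp only [Nat.succ_mul]
  omega

end Cmp

end Crest.Agent.Lib.PT
private theorem rz_f3b33923cd : type_of% @_root_.Crest.Agent.Lib.PT.V.ofBool.eq_1 := @_root_.Crest.Agent.Lib.PT.V.ofBool.eq_1 -- L41
end

-- ▼ part PVb/Lib/PT/Basic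

/-!
# Polynomial-time computable functions between encoded types

* `Enc α` : an injective encoding of `α` by binary trees, `sz a` the size of the code.
* `PB g` : `g : α → ℕ` is bounded by a polynomial in `sz`.
* `PT f` : `f : α → β` is computable in polynomial time.  Both are `fun_prop` predicates.
* Predicates `p : α → Prop` are functions into the encoded type `Prop`.
* `Un` : natural numbers in unary (loop counters, exponents).
-/

set_option linter.dupNamespace false

namespace Crest.Agent.Lib.PT

universe u v w x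

/-- An injective encoding into binary trees. -/
class Enc (α : Type u) where
  /-- the code -/
  enc : α → V
  /-- codes determine values -/
  inj : Function.Injective enc

export Enc (enc)

/-- Size of the code. -/
def sz {α : Type u} [Enc α] (a : α) : ℕ := (enc a).size

theorem sz_pos {α : Type u} [Enc α] (a : α) : 0 < sz a := V.size_pos _

theorem one_le_sz {α : Type u} [Enc α] (a : α) : 1 ≤ sz a := V.size_pos _

theorem enc_inj {α : Type u} [Enc α] {a b : α} : enc a = enc b ↔ a = b := Enc.inj.eq_iff

/-! ### Instances -/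

section instances

variable {α : Type u} {β : Type v}

instance encV : Enc V := ⟨id, fun _ _ h => h⟩

instance encUnit : Enc PUnit.{u + 1} := ⟨fun _ => .nil, fun _ _ _ => rfl⟩

theorem ofBool_inj : Function.Injective V.ofBool := by
  intro a b h; cases a <;> cases b <;> simp_all [V.ofBool]

instance encBool : Enc Bool := ⟨V.ofBool, ofBool_inj⟩

open Classical in
noncomputable instance encProp : Enc Prop :=
  ⟨fun p => V.ofBool (decide p), fun p q h => by simpa using ofBool_inj h⟩

instance encProd [Enc α] [Enc β] : Enc (α × β) :=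
  ⟨fun p => .node (enc p.1) (enc p.2), fun p q h => by
    simp only [V.node.injEq, enc_inj] at h; exact Prod.ext h.1 h.2⟩

/-- Code of a list. -/
def encL [Enc α] : List α → V
  | [] => .nil
  | a :: l => .node (enc a) (encL l)

theorem encL_inj [Enc α] : Function.Injective (encL : List α → V) := by
  intro l
  induction l with
  | nil => intro l' h; cases l' <;> simp_all [encL]
  | cons a l ih =>
    intro l' h
    cases l' with
    | nil => simp [encL] at h
    | cons b l' =>
      simp only [encL, V.node.injEq, enc_inj] at h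
      rw [h.1, ih h.2]

instance encList [Enc α] : Enc (List α) := ⟨encL, encL_inj⟩

instance encOption [Enc α] : Enc (Option α) :=
  ⟨fun o => enc o.toList, fun a b h => by
    have := enc_inj.1 h
    cases a <;> cases b <;> simp_all⟩

instance encSum [Enc α] [Enc β] : Enc (α ⊕ β) :=
  ⟨fun s => enc (Sum.elim (fun a => (false, enc a)) (fun b => (true, enc b)) s : Bool × V),
    fun a b h => by
      have := enc_inj.1 h
      cases a <;> cases b <;> simp_all [enc_inj]⟩

/-- The number with the given binary digits, least significant first. -/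
def ofBits (l : List Bool) : ℕ := l.foldr Nat.bit 0

@[simp] theorem ofBits_nil : ofBits [] = 0 := rfl
@[simp] theorem ofBits_cons (b : Bool) (l : List Bool) :
    ofBits (b :: l) = Nat.bit b (ofBits l) := rfl

@[simp] theorem ofBits_bits (n : ℕ) : ofBits n.bits = n := by
  induction n using Nat.binaryRec' with
  | zero => simp
  | bit b n h ih => rw [Nat.bits_append_bit _ _ h, ofBits_cons, ih]

instance encNat : Enc ℕ :=
  ⟨fun n => enc n.bits, fun a b h => by
    have := congrArg ofBits (enc_inj.1 h)
    simpa using this⟩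

/-- Natural numbers written in unary. -/
@[ext] structure Un where
  /-- the number -/
  n : ℕ

instance encUn : Enc Un :=
  ⟨fun u => enc (List.replicate u.n ()), fun a b h => by
    have := congrArg List.length (enc_inj.1 h)
    ext; simpa using this⟩

instance encSubtype [Enc α] {p : α → Prop} : Enc (Subtype p) :=
  ⟨fun a => enc a.1, fun _ _ h => Subtype.ext (enc_inj.1 h)⟩

instance encFin {n : ℕ} : Enc (Fin n) := ⟨fun a => enc a.1, fun _ _ h => Fin.ext (enc_inj.1 h)⟩

instance encInt : Enc ℤ :=
  ⟨fun z => enc (decide (z < 0), z.natAbs), fun a b h => by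
    have := enc_inj.1 h
    simp only [Prod.mk.injEq, decide_eq_decide] at this
    omega⟩

instance encRat : Enc ℚ :=
  ⟨fun q => enc (q.num, q.den), fun a b h => by
    have := enc_inj.1 h
    simp only [Prod.mk.injEq] at this
    exact Rat.ext this.1 this.2⟩

theorem enc_V (v : V) : enc v = v := rfl
theorem enc_false : enc false = V.nil := rfl
theorem enc_true : enc true = V.node .nil .nil := rfl
theorem enc_prop (p : Prop) [Decidable p] : enc p = enc (decide p) := by
  show V.ofBool _ = V.ofBool _
  congr
theorem enc_prod [Enc α] [Enc β] (p : α × β) : enc p = V.node (enc p.1) (enc p.2) := rfl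
theorem enc_mk [Enc α] [Enc β] (a : α) (b : β) : enc (a, b) = V.node (enc a) (enc b) := rfl
theorem enc_nil [Enc α] : enc ([] : List α) = V.nil := rfl
theorem enc_cons [Enc α] (a : α) (l : List α) : enc (a :: l) = V.node (enc a) (enc l) := rfl
theorem enc_option [Enc α] (o : Option α) : enc o = enc o.toList := rfl
theorem enc_inl [Enc α] [Enc β] (a : α) :
    enc (Sum.inl a : α ⊕ β) = V.node (enc false) (enc a) := rfl
theorem enc_inr [Enc α] [Enc β] (b : β) :
    enc (Sum.inr b : α ⊕ β) = V.node (enc true) (enc b) := rfl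
theorem enc_nat (n : ℕ) : enc n = enc n.bits := rfl
theorem enc_un (u : Un) : enc u = enc (List.replicate u.n ()) := rfl
theorem enc_subtype [Enc α] {p : α → Prop} (a : Subtype p) : enc a = enc a.1 := rfl
theorem enc_int (z : ℤ) : enc z = enc (decide (z < 0), z.natAbs) := rfl
theorem enc_rat (q : ℚ) : enc q = enc (q.num, q.den) := rfl

@[simp] theorem sz_V (v : V) : sz v = v.size := rfl
@[simp] theorem sz_unit (u : PUnit.{u + 1}) : sz u = 1 := rfl
theorem sz_bool_le (b : Bool) : sz b ≤ 3 := V.size_ofBool_le b
@[simp] theorem sz_mk [Enc α] [Enc β] (a : α) (b : β) : sz (a, b) = sz a + sz b + 1 := rfl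
theorem sz_prod [Enc α] [Enc β] (p : α × β) : sz p = sz p.1 + sz p.2 + 1 := rfl
@[simp] theorem sz_nil [Enc α] : sz ([] : List α) = 1 := rfl
@[simp] theorem sz_cons [Enc α] (a : α) (l : List α) : sz (a :: l) = sz a + sz l + 1 := rfl
@[simp] theorem sz_none [Enc α] : sz (none : Option α) = 1 := rfl
@[simp] theorem sz_some [Enc α] (a : α) : sz (some a) = sz a + 2 := rfl
@[simp] theorem sz_inl [Enc α] [Enc β] (a : α) : sz (Sum.inl a : α ⊕ β) = sz a + 2 := by
  show 1 + sz a + 1 = _; omega
@[simp] theorem sz_inr [Enc α] [Enc β] (b : β) : sz (Sum.inr b : α ⊕ β) = sz b + 4 := by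
  show 3 + sz b + 1 = _; omega
theorem sz_subtype [Enc α] {p : α → Prop} (a : Subtype p) : sz a = sz a.1 := rfl
theorem sz_nat (n : ℕ) : sz n = sz n.bits := rfl
theorem sz_int (z : ℤ) : sz z = sz (decide (z < 0)) + sz z.natAbs + 1 := rfl
theorem sz_rat (q : ℚ) : sz q = sz q.num + sz q.den + 1 := rfl

@[simp] theorem sz_append [Enc α] (l l' : List α) : sz (l ++ l') + 1 = sz l + sz l' := by
  induction l with
  | nil => simp; omega
  | cons a l ih => simp; omega

@[simp] theorem sz_reverse [Enc α] (l : List α) : sz l.reverse = sz l := by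
  induction l with
  | nil => rfl
  | cons a l ih =>
    have := sz_append l.reverse [a]
    simp only [List.reverse_cons, sz_cons, sz_nil] at this ⊢; omega

theorem length_le_sz [Enc α] (l : List α) : 2 * l.length + 1 ≤ sz l := by
  induction l with
  | nil => simp
  | cons a l ih => have := one_le_sz a; simp; omega

theorem sz_le_of_mem [Enc α] {l : List α} {a : α} (h : a ∈ l) : sz a ≤ sz l := by
  induction l with
  | nil => simp at h
  | cons b l ih =>
    rcases List.mem_cons.1 h with rfl | h
    · simp; omega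
    · have := ih h; simp; omega

theorem sz_list_le [Enc α] {l : List α} {B : ℕ} (h : ∀ a ∈ l, sz a ≤ B) :
    sz l ≤ l.length * (B + 1) + 1 := by
  induction l with
  | nil => simp
  | cons b l ih =>
    have h1 := h b (by simp)
    have h2 := ih fun a ha => h a (by simp [ha])
    simp only [sz_cons, List.length_cons, Nat.succ_mul]; omega

theorem sz_sublist [Enc α] {l l' : List α} (h : l.Sublist l') : sz l ≤ sz l' := by
  induction h with
  | slnil => simp
  | cons a _ ih => simp; omega
  | cons_cons a _ ih => simp; omega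

theorem sz_replicate [Enc α] (n : ℕ) (a : α) : sz (List.replicate n a) = n * (sz a + 1) + 1 := by
  induction n with
  | zero => simp
  | succ n ih => simp only [List.replicate_succ, sz_cons, ih, Nat.succ_mul]; omega

@[simp] theorem sz_un (u : Un) : sz u = 2 * u.n + 1 := by
  show sz (List.replicate u.n ()) = _
  rw [sz_replicate]; simp; omega

theorem sz_boolList_le (l : List Bool) : sz l ≤ 4 * l.length + 1 := by
  have := sz_list_le (l := l) (B := 3) fun a _ => sz_bool_le a
  omega

theorem sz_nat_le (n : ℕ) : sz n ≤ 4 * n.size + 1 := by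
  rw [← Nat.size_eq_bits_len]; exact sz_boolList_le _

theorem size_le_sz (n : ℕ) : 2 * n.size + 1 ≤ sz n := by
  rw [← Nat.size_eq_bits_len]; exact length_le_sz _

theorem lt_two_pow_sz (n : ℕ) : n < 2 ^ sz n :=
  (Nat.lt_size_self n).trans_le (Nat.pow_le_pow_right (by omega) (by have := size_le_sz n; omega))

/-- A number below `2 ^ k` has a code of size at most `4 * k + 1`. -/
theorem sz_nat_le_of_lt {n k : ℕ} (h : n < 2 ^ k) : sz n ≤ 4 * k + 1 := by
  have := sz_nat_le n
  have := Nat.size_le.2 h
  omega

theorem sz_nat_le_of_le {n m : ℕ} (h : n ≤ m) : sz n ≤ 2 * sz m := by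
  have := sz_nat_le n
  have := size_le_sz m
  have := Nat.size_le_size h
  omega

theorem sz_nat_le_self (n : ℕ) : sz n ≤ 4 * n + 1 := sz_nat_le_of_lt Nat.lt_two_pow_self

end instances

/-! ### Polynomially bounded functions -/

/-- `g` is bounded by a polynomial in the size of its argument. -/
@[fun_prop] def PB {α : Type u} [Enc α] (g : α → ℕ) : Prop :=
  ∃ c k : ℕ, ∀ a, g a ≤ c * sz a ^ k

namespace PB

variable {α : Type u} {β : Type v} [Enc α] [Enc β] {f g : α → ℕ}

theorem mono (h : PB g) (hf : ∀ a, f a ≤ g a) : PB f := by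
  obtain ⟨c, k, h⟩ := h
  exact ⟨c, k, fun a => (hf a).trans (h a)⟩

@[fun_prop] theorem const (n : ℕ) : PB (fun _ : α => n) := ⟨n, 0, fun a => by simp⟩

theorem sz_self : PB (fun a : α => sz a) := ⟨1, 1, fun a => by simp⟩

@[fun_prop] theorem add (hf : PB f) (hg : PB g) : PB (fun a => f a + g a) := by
  obtain ⟨c, k, hf⟩ := hf
  obtain ⟨c', k', hg⟩ := hg
  refine ⟨c + c', k + k', fun a => ?_⟩
  have h1 : sz a ^ k ≤ sz a ^ (k + k') := Nat.pow_le_pow_right (sz_pos a) (by omega)
  have h2 : sz a ^ k' ≤ sz a ^ (k + k') := Nat.pow_le_pow_right (sz_pos a) (by omega)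
  have := Nat.mul_le_mul_left c h1
  have := Nat.mul_le_mul_left c' h2
  have := hf a
  have := hg a
  simp only [Nat.add_mul]; omega

@[fun_prop] theorem mul (hf : PB f) (hg : PB g) : PB (fun a => f a * g a) := by
  obtain ⟨c, k, hf⟩ := hf
  obtain ⟨c', k', hg⟩ := hg
  refine ⟨c * c', k + k', fun a => ?_⟩
  calc f a * g a ≤ (c * sz a ^ k) * (c' * sz a ^ k') := Nat.mul_le_mul (hf a) (hg a)
    _ = _ := by ring

@[fun_prop] theorem pow (hf : PB f) (n : ℕ) : PB (fun a => f a ^ n) := by
  induction n with
  | zero => simpa using const 1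
  | succ n ih => simpa [pow_succ] using ih.mul hf

@[fun_prop] theorem succ (hf : PB f) : PB (fun a => (f a).succ) := hf.add (const 1)

@[fun_prop] theorem max (hf : PB f) (hg : PB g) : PB (fun a => max (f a) (g a)) :=
  (hf.add hg).mono fun a => by omega

@[fun_prop] theorem sub (hf : PB f) (g : α → ℕ) : PB (fun a => f a - g a) :=
  hf.mono fun a => by omega

@[fun_prop] theorem div (hf : PB f) (g : α → ℕ) : PB (fun a => f a / g a) :=
  hf.mono fun _ => Nat.div_le_self _ _


theorem min_right (f : α → ℕ) (hg : PB g) : PB (fun a => min (f a) (g a)) :=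
  hg.mono fun a => by omega

@[fun_prop] theorem eval (hf : PB f) (P : Polynomial ℕ) : PB (fun a => P.eval (f a)) := by
  induction P using Polynomial.induction_on' with
  | add p q hp hq => simpa using hp.add hq
  | monomial n c => simpa using (const c).mul (hf.pow n)

/-- Composition with a map whose output size is polynomially bounded. -/
theorem comp_sz {g : β → ℕ} (hg : PB g) {e : α → β} (he : PB fun a => sz (e a)) :
    PB (fun a => g (e a)) := by
  obtain ⟨c, k, hg⟩ := hg
  exact ((const c).mul (he.pow k)).mono fun a => hg (e a)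

end PB

/-! ### Polynomial time -/

/-- `f` is computed within `T a` steps on input `a`. -/
def TC {α : Type u} {β : Type v} [Enc α] [Enc β] (f : α → β) (T : α → ℕ) : Prop :=
  Cmp (fun a => enc a) (fun a => enc (f a)) T

/-- `f` is computable in polynomial time. -/
@[fun_prop] def PT {α : Type u} {β : Type v} [Enc α] [Enc β] (f : α → β) : Prop :=
  ∃ T, PB T ∧ TC f T

section core

variable {α : Type u} {β : Type v} {γ : Type w} {δ : Type x} [Enc α] [Enc β] [Enc γ] [Enc δ]

@[fun_prop] protected theorem PB.sz {f : α → β} (hf : PT f) : PB (fun a => sz (f a)) := by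
  obtain ⟨T, hT, h⟩ := hf
  exact (PB.sz_self.add hT).mono h.size_le

@[fun_prop] theorem PB.comp {g : β → ℕ} {f : α → β} (hg : PB g) (hf : PT f) :
    PB (fun a => g (f a)) := hg.comp_sz (PB.sz hf)

@[fun_prop] theorem PB.length {l : α → List β} (hl : PT l) : PB (fun a => (l a).length) :=
  (PB.sz hl).mono fun a => by have := length_le_sz (l a); omega

@[fun_prop] theorem PB.un {u : α → Un} (hu : PT u) : PB (fun a => (u a).n) :=
  (PB.sz hu).mono fun a => by simp; omega

@[fun_prop] theorem PB.size {n : α → ℕ} (hn : PT n) : PB (fun a => (n a).size) :=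
  (PB.sz hn).mono fun a => by have := size_le_sz (n a); omega

namespace PT

theorem of_enc_eq {f : α → β} {g : α → γ} (hg : PT g) (h : ∀ a, enc (f a) = enc (g a)) :
    PT f := by
  obtain ⟨T, hT, hg⟩ := hg
  exact ⟨T, hT, Cmp.congr hg (fun _ => rfl) h⟩

theorem of_eq {f g : α → β} (hg : PT g) (h : ∀ a, g a = f a) : PT f :=
  hg.of_enc_eq fun a => by rw [h]

theorem of_iff {p q : α → Prop} (hq : PT q) (h : ∀ a, q a ↔ p a) : PT p :=
  hq.of_eq fun a => propext (h a)

@[fun_prop] theorem id : PT (fun a : α => a) := ⟨_, PB.const 1, Cmp.refl _⟩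

/-- A map that does not change the code. -/
theorem of_enc {f : α → β} (h : ∀ a, enc (f a) = enc a) : PT f := id.of_enc_eq h

@[fun_prop] theorem const (b : β) : PT (fun _ : α => b) :=
  ⟨_, ((PB.const 7).mul PB.sz_self).add (PB.const (sz b)) |>.add (PB.const 5), Cmp.const _ _⟩

@[fun_prop] theorem comp {g : β → γ} {f : α → β} (hg : PT g) (hf : PT f) :
    PT (fun a => g (f a)) := by
  obtain ⟨T', hT', hg⟩ := hg
  have h2 := PB.comp hT' hf
  obtain ⟨T, hT, hf⟩ := hf
  exact ⟨_, hT.add h2, Cmp.trans hf (Cmp.reindex hg f)⟩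

@[fun_prop] theorem comp' {g : β → γ} {f : α → β} (hg : PT g) (hf : PT f) : PT (g ∘ f) :=
  hg.comp hf

@[fun_prop] theorem enc {f : α → β} (hf : PT f) : PT (fun a => Enc.enc (f a)) :=
  hf.of_enc_eq fun _ => rfl

@[fun_prop] theorem pair {f : α → β} {g : α → γ} (hf : PT f) (hg : PT g) :
    PT (fun a => (f a, g a)) := by
  obtain ⟨T, hT, hf⟩ := hf
  obtain ⟨T', hT', hg⟩ := hg
  exact ⟨_, ((hT.add ((PB.const 12).mul hT')).add ((PB.const 30).mul PB.sz_self)).add
    (PB.const 17), Cmp.pair hf hg⟩

@[fun_prop] theorem node {f g : α → V} (hf : PT f) (hg : PT g) :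
    PT (fun a => V.node (f a) (g a)) := (hf.pair hg).of_enc_eq fun _ => rfl

@[fun_prop] theorem left {f : α → V} (hf : PT f) : PT (fun a => (f a).left) :=
  comp (g := V.left) ⟨_, ((PB.const 14).mul PB.sz_self).add (PB.const 15), Cmp.left _⟩ hf

@[fun_prop] theorem right {f : α → V} (hf : PT f) : PT (fun a => (f a).right) :=
  comp (g := V.right) ⟨_, ((PB.const 7).mul PB.sz_self).add (PB.const 5), Cmp.right _⟩ hf

@[fun_prop] theorem fst {f : α → β × γ} (hf : PT f) : PT (fun a => (f a).1) :=
  hf.enc.left.of_enc_eq fun _ => rfl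

@[fun_prop] theorem snd {f : α → β × γ} (hf : PT f) : PT (fun a => (f a).2) :=
  hf.enc.right.of_enc_eq fun _ => rfl

@[fun_prop] theorem val {p : β → Prop} {f : α → Subtype p} (hf : PT f) :
    PT (fun a => (f a).1) := hf.of_enc_eq fun _ => rfl

@[fun_prop] theorem subtype_mk {p : β → Prop} {f : α → β} (hf : PT f) (h : ∀ a, p (f a)) :
    PT (fun a => (⟨f a, h a⟩ : Subtype p)) := hf.of_enc_eq fun _ => rfl

@[fun_prop] theorem fin_val {n : ℕ} {f : α → Fin n} (hf : PT f) :
    PT (fun a => (f a).1) := hf.of_enc_eq fun _ => rfl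

@[fun_prop] theorem fin_mk {n : ℕ} {f : α → ℕ} (hf : PT f) (h : ∀ a, f a < n) :
    PT (fun a => (⟨f a, h a⟩ : Fin n)) := hf.of_enc_eq fun _ => rfl

/-- Case distinction on a tree; the branches need only be fast on their own part of the domain. -/
theorem cases_nil {c : α → V} {f : α → β} (hc : PT c)
    (h₁ : PT (fun a : {a // c a = V.nil} => f a.1))
    (h₂ : PT (fun a : {a // c a ≠ V.nil} => f a.1)) : PT f := by
  obtain ⟨T₀, hT₀, hc⟩ := hc
  obtain ⟨T₁, ⟨c₁, k₁, hT₁⟩, h₁⟩ := h₁
  obtain ⟨T₂, ⟨c₂, k₂, hT₂⟩, h₂⟩ := h₂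
  refine ⟨_, ?_, Cmp.cond (T₁ := fun a => c₁ * sz a ^ k₁ + c₂ * sz a ^ k₂) hc
    (Cmp.mono h₁ fun a => (hT₁ a).trans (Nat.le_add_right _ _))
    (Cmp.mono h₂ fun a => (hT₂ a).trans (Nat.le_add_left _ _))⟩
  have := PB.sz_self (α := α)
  exact ((((PB.const 8).mul hT₀).add (((PB.const _).mul (this.pow _)).add
    ((PB.const _).mul (this.pow _)))).add ((PB.const 19).mul this)).add (PB.const 15)

@[fun_prop] theorem decide {p : α → Prop} [DecidablePred p] (hp : PT p) :
    PT (fun a => Decidable.decide (p a)) := hp.of_enc_eq fun a => (enc_prop (p a)).symm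

theorem of_decide {p : α → Prop} [DecidablePred p] (hp : PT (fun a => Decidable.decide (p a))) :
    PT p := hp.of_enc_eq fun a => enc_prop (p a)

theorem eq_true {f : α → Bool} (hf : PT f) : PT (fun a => f a = true) :=
  of_decide (hf.of_eq fun a => by simp)

/-- Case distinction on a predicate; the branches need only be fast on their own part. -/
theorem by_cases {p : α → Prop} {f : α → β} (hp : PT p)
    (h₁ : PT (fun a : {a // p a} => f a.1)) (h₂ : PT (fun a : {a // ¬ p a} => f a.1)) : PT f := by
  classical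
  have e1 : ∀ a, Enc.enc (p a) = V.nil → ¬ p a := fun a h hp => by
    rw [enc_prop, decide_eq_true hp] at h; cases h
  have e2 : ∀ a, Enc.enc (p a) ≠ V.nil → p a := fun a h => by
    by_contra hp
    rw [enc_prop, decide_eq_false hp] at h; exact h rfl
  exact cases_nil hp.enc
    (h₂.comp (f := fun a : {a // Enc.enc (p a) = V.nil} => ⟨a.1, e1 _ a.2⟩) (of_enc fun _ => rfl))
    (h₁.comp (f := fun a : {a // Enc.enc (p a) ≠ V.nil} => ⟨a.1, e2 _ a.2⟩) (of_enc fun _ => rfl))


@[fun_prop] theorem ite {p : α → Prop} [DecidablePred p] {f g : α → β}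
    (hp : PT p) (h₁ : PT f) (h₂ : PT g) : PT (fun a => ite (p a) (f a) (g a)) :=
  by_cases hp ((h₁.comp id.val).of_eq fun a => by rw [if_pos a.2])
    ((h₂.comp id.val).of_eq fun a => by rw [if_neg a.2])



/-- `PT.decide` with the decidability instance found by unification. -/
theorem decide' {p : α → Prop} {_ : DecidablePred p} (hp : PT p) :
    PT (fun a => Decidable.decide (p a)) := decide hp

@[fun_prop] theorem cond {c : α → Bool} {f g : α → β}
    (hc : PT c) (h₁ : PT f) (h₂ : PT g) : PT (fun a => cond (c a) (f a) (g a)) :=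
  (ite hc.eq_true h₁ h₂).of_eq fun a => by cases c a <;> simp

/-- The general loop: run `next` while `cont` holds. `I` is an invariant; the step needs to be
fast only on states satisfying it. -/
theorem while_inv {σ : Type w} [Enc σ] {cont : σ → Prop} {next : σ → σ} (I : σ → Prop)
    (hI : ∀ s, I s → cont s → I (next s))
    (hc : PT (fun s : {s // I s} => cont s.1))
    (hn : PT (fun s : {s // I s ∧ cont s} => next s.1))
    {s₀ : α → σ} (hs : PT s₀) (h0 : ∀ a, I (s₀ a)) {N B : α → ℕ} (hN : PB N) (hB : PB B)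
    (h1 : ∀ a i, i < N a → cont (next^[i] (s₀ a)))
    (h2 : ∀ a, ¬ cont (next^[N a] (s₀ a)))
    (h3 : ∀ a i, i ≤ N a → sz (next^[i] (s₀ a)) ≤ B a) :
    PT (fun a => next^[N a] (s₀ a)) := by
  classical
  let nx : {s // I s} → {s // I s} := fun s =>
    if h : cont s.1 then ⟨next s.1, hI _ s.2 h⟩ else s
  have it : ∀ a i, i ≤ N a → (nx^[i] ⟨s₀ a, h0 a⟩).1 = next^[i] (s₀ a) := by
    intro a i
    induction i with
    | zero => intro _; rfl
    | succ i ih =>
      intro hi
      have e := ih (by omega)
      rw [Function.iterate_succ_apply', Function.iterate_succ_apply']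
      have hc' : cont (nx^[i] ⟨s₀ a, h0 a⟩).1 := by rw [e]; exact h1 a i (by omega)
      simp only [nx] at hc' e ⊢
      rw [dif_pos hc']; exact congrArg next e
  obtain ⟨Tc, ⟨c₁, k₁, hTc⟩, hc⟩ := hc.decide
  obtain ⟨Tb, ⟨c₂, k₂, hTb⟩, hn⟩ := hn
  obtain ⟨T₀, hT₀, hs⟩ := hs
  have hb : Cmp (fun s : {s : {s // I s} // Decidable.decide (cont s.1) = true} => Enc.enc s.1)
      (fun s => Enc.enc (nx s.1)) (fun s => c₂ * sz s.1 ^ k₂) := by
    refine Cmp.mono (Cmp.congr (Cmp.reindex hn
      (fun s : {s : {s // I s} // Decidable.decide (cont s.1) = true} =>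
        ⟨s.1.1, s.1.2, of_decide_eq_true s.2⟩)) (fun _ => rfl) (fun s => ?_)) fun s => hTb _
    simp only [nx]
    rw [dif_pos (of_decide_eq_true s.2)]; rfl
  have szle : ∀ a i, i ≤ N a → sz (nx^[i] ⟨s₀ a, h0 a⟩) ≤ B a := fun a i hi => by
    rw [sz_subtype, it a i hi]; exact h3 a i hi
  have main := Cmp.while_loop (S := fun s : {s // I s} => Enc.enc s) (next := nx)
    (Tb := fun s => c₂ * sz s ^ k₂) hc hb (fun a => ⟨s₀ a, h0 a⟩) N
    (fun a => c₁ * B a ^ k₁ + c₂ * B a ^ k₂ + B a)
    (fun a i hi => decide_eq_true (by rw [it a i hi.le]; exact h1 a i hi))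
    (fun a => decide_eq_false (by rw [it a _ le_rfl]; exact h2 a))
    (fun a i hi => by
      have := (hTc _).trans (Nat.mul_le_mul_left c₁ (Nat.pow_le_pow_left (szle a i hi) k₁))
      have h5 : V.size _ ≤ _ := szle a i hi
      constructor <;> omega)
    (fun a i hi => by
      have := Nat.mul_le_mul_left c₂ (Nat.pow_le_pow_left (szle a i hi.le) k₂)
      omega)
  refine ⟨_, ?_, Cmp.trans hs (Cmp.congr main (fun _ => rfl) fun a => ?_)⟩
  · exact hT₀.add ((hN.add (PB.const 1)).mul (((PB.const 14).mul
      ((((PB.const _).mul (hB.pow _)).add ((PB.const _).mul (hB.pow _))).add hB)).add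
        (PB.const 12)))
  · rw [enc_subtype, it a _ le_rfl]


end PT

end core

end Crest.Agent.Lib.PT
private theorem rz_48e7abd36d : type_of% @_root_.Crest.Agent.Lib.PT.encL.eq_def := @_root_.Crest.Agent.Lib.PT.encL.eq_def -- L61
private theorem rz_226f92116a : type_of% @_root_.Crest.Agent.Lib.PT.encL.eq_1 := @_root_.Crest.Agent.Lib.PT.encL.eq_1 -- L61
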