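import Crest.Agent.PVb.Lib.PT.Logic
import Crest.Agent.PVb.Lib.PT.Basic
import Crest.Prelude.Def_TimeBound
import Crest.Prelude.Def_Randomized
import Crest.Prelude.Def_BitEnc

-- ▼ part PVb/Lib/PT/Fold
section

/-!
# Polynomial time: folds and the basic list library
-/

set_option linter.dupNamespace false

namespace Crest.Agent.Lib.PT

universe u v w x y

variable {α : Type u} {β : Type v} {γ : Type w} {δ : Type x} [Enc α] [Enc β] [Enc γ] [Enc δ]

/-- A bound in terms of a list element is a bound in terms of the list. -/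
theorem PB.mem_bound' {l : α → List β} (hl : PT l) {G : {p : α × β // p.2 ∈ l p.1} → ℕ}
    (hG : PB G) : ∃ G' : α → ℕ, PB G' ∧ ∀ a b (h : b ∈ l a), G ⟨(a, b), h⟩ ≤ G' a := by
  obtain ⟨c, k, hG⟩ := hG
  refine ⟨fun a => c * (sz a + sz (l a) + 1) ^ k, by fun_prop, fun a b h => (hG _).trans ?_⟩
  have := sz_le_of_mem h
  refine Nat.mul_le_mul_left _ (Nat.pow_le_pow_left ?_ _)
  rw [sz_subtype]; simp; omega

/-- A bound in terms of a list element is a bound in terms of the list. -/
theorem PB.mem_bound {l : α → List β} (hl : PT l) {G : α × β → ℕ}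
    (hG : PB G) : ∃ G' : α → ℕ, PB G' ∧ ∀ a b, b ∈ l a → G (a, b) ≤ G' a :=
  PB.mem_bound' hl (G := fun p => G p.1) (hG.comp PT.id.val)

namespace PT

/-- One round of a left fold. -/
def foldlStep (f : α → γ → β → γ) (s : α × γ × List β) : α × γ × List β :=
  List.casesOn (motive := fun _ => α × γ × List β) s.2.2 s fun b t => (s.1, f s.1 s.2.1 b, t)

/-- The most general left fold: the step need only be fast on the states that occur. -/
theorem foldl_gen {l : α → List β} {init : α → γ} {f : α → γ → β → γ} (hl : PT l) (hi : PT init)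
    (hf : PT fun p : {p : α × γ × β // ∃ pre rest, l p.1 = pre ++ p.2.2 :: rest ∧
      p.2.1 = pre.foldl (f p.1) (init p.1)} => f p.1.1 p.1.2.1 p.1.2.2)
    {B : α → ℕ} (hB : PB B)
    (hsz : ∀ a pre, pre <+: l a → sz (pre.foldl (f a) (init a)) ≤ B a) :
    PT fun a => (l a).foldl (f a) (init a) := by
  let J : α × γ × List β → Prop := fun s =>
    ∃ pre, l s.1 = pre ++ s.2.2 ∧ s.2.1 = pre.foldl (f s.1) (init s.1)
  have h := loop_inv (cont := fun s : α × γ × List β => ¬ s.2.2 = []) (next := foldlStep f) J
    ?_ id.val.snd.snd.eq_nil.not ?_ (s₀ := fun a => (a, init a, l a))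
    (out := fun a => (a, (l a).foldl (f a) (init a), [])) (by fun_prop)
    (fun a => ⟨[], rfl, rfl⟩) (N := fun a => (l a).length)
    (B := fun a => sz a + B a + sz (l a) + 2) (by fun_prop) (by fun_prop) ?_
  · exact h.snd.fst
  · rintro ⟨a, c, _ | ⟨b, t⟩⟩ ⟨pre, h1, h2⟩ h3
    · exact absurd rfl h3
    · exact ⟨pre ++ [b], by simpa [foldlStep] using h1, by
        simp only [foldlStep, List.foldl_append, List.foldl_cons, List.foldl_nil]
        simp only [] at h2
        rw [h2]⟩
  · have key : ∀ s : {s : α × γ × List β // J s ∧ ¬ s.2.2 = []}, ∃ pre rest,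
        l s.1.1 = pre ++ s.1.2.2.head s.2.2 :: rest ∧
          s.1.2.1 = pre.foldl (f s.1.1) (init s.1.1) := by
      rintro ⟨s, ⟨pre, h1, h2⟩, h3⟩
      exact ⟨pre, s.2.2.tail, by simpa using h1, h2⟩
    have h1 := hf.comp (f := fun s : {s : α × γ × List β // J s ∧ ¬ s.2.2 = []} =>
      ⟨(s.1.1, s.1.2.1, s.1.2.2.head s.2.2), key s⟩)
      (subtype_mk (id.val.fst.pair (id.val.snd.fst.pair
        (id.val.snd.snd.head fun s => s.2.2))) _)
    refine (id.val.fst.pair (h1.pair id.val.snd.snd.tail)).of_eq ?_
    rintro ⟨⟨a, c, _ | ⟨b, t⟩⟩, h2, h3⟩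
    · exact absurd rfl h3
    · rfl
  · intro a
    have key : ∀ rest pre : List β, l a = pre ++ rest →
        Loop (fun s : α × γ × List β => ¬ s.2.2 = []) (foldlStep f)
          (sz a + B a + sz (l a) + 2) (a, pre.foldl (f a) (init a), rest)
          (a, (l a).foldl (f a) (init a), []) rest.length := by
      intro rest
      induction rest with
      | nil =>
        intro pre h
        rw [List.append_nil] at h
        rw [← h]
        have := hsz a (l a) List.prefix_rfl
        have := one_le_sz (l a)
        exact Loop.stop (by simp) (by simp; omega)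
      | cons b t ih =>
        intro pre h
        have h1 := hsz a pre ⟨_, h.symm⟩
        have h2 : sz (b :: t) ≤ sz (l a) := sz_sublist (by rw [h]; simp)
        refine Loop.step (by simp) (by simp only [sz_mk]; omega) ?_
        have := ih (pre ++ [b]) (by simpa using h)
        simpa [foldlStep] using this
    exact key (l a) [] rfl

/-- Left fold, given a bound on the size of all partial results. -/
theorem foldl_of_prefix {l : α → List β} {init : α → γ} {f : α → γ → β → γ} (hl : PT l)
    (hi : PT init) (hf : PT fun p : α × γ × β => f p.1 p.2.1 p.2.2) {B : α → ℕ} (hB : PB B)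
    (hsz : ∀ a pre, pre <+: l a → sz (pre.foldl (f a) (init a)) ≤ B a) :
    PT fun a => (l a).foldl (f a) (init a) :=
  foldl_gen hl hi (hf.restrict _) hB hsz

/-- Left fold with an invariant `I a k c` (`c` is a possible accumulator after `k` rounds). -/
theorem foldl_inv {l : α → List β} {init : α → γ} {f : α → γ → β → γ} (I : α → ℕ → γ → Prop)
    (hl : PT l) (hi : PT init) (h0 : ∀ a, I a 0 (init a))
    (hI : ∀ a k c b, k < (l a).length → b ∈ l a → I a k c → I a (k + 1) (f a c b))
    (hf : PT fun p : {p : α × γ × β // (∃ k, k < (l p.1).length ∧ I p.1 k p.2.1) ∧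
      p.2.2 ∈ l p.1} => f p.1.1 p.1.2.1 p.1.2.2)
    {B : α → ℕ} (hB : PB B) (hsz : ∀ a k c, k ≤ (l a).length → I a k c → sz c ≤ B a) :
    PT fun a => (l a).foldl (f a) (init a) := by
  have key : ∀ a pre, pre <+: l a → I a pre.length (pre.foldl (f a) (init a)) := by
    intro a pre
    induction pre using List.reverseRecOn with
    | nil => intro _; exact h0 a
    | append_singleton pre b ih =>
      intro h
      have h1 := h.length_le
      simp only [List.foldl_append, List.foldl_cons, List.foldl_nil, List.length_append,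
        List.length_singleton] at h1 ⊢
      exact hI _ _ _ _ (by omega) (h.subset (by simp))
        (ih ((List.prefix_append _ _).trans h))
  refine foldl_gen hl hi (hf.sub_mono fun p hp => ?_) hB
    fun a pre h => hsz a _ _ h.length_le (key a pre h)
  obtain ⟨pre, rest, h1, h2⟩ := hp
  refine ⟨⟨pre.length, by rw [h1]; simp, ?_⟩, by rw [h1]; simp⟩
  rw [h2]; exact key _ _ ⟨_, h1.symm⟩

/-- Left fold whose accumulator grows by a polynomial amount in each round. -/
theorem foldl_grow' {l : α → List β} {init : α → γ} {f : α → γ → β → γ} (hl : PT l)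
    (hi : PT init)
    (hf : PT fun p : {p : α × γ × β // p.2.2 ∈ l p.1} => f p.1.1 p.1.2.1 p.1.2.2)
    {G : α → ℕ} (hG : PB G) (hsz : ∀ a c b, b ∈ l a → sz (f a c b) ≤ sz c + G a) :
    PT fun a => (l a).foldl (f a) (init a) :=
  foldl_inv (fun a k c => sz c ≤ sz (init a) + k * G a) hl hi (fun a => by simp)
    (fun a k c b _ hb h => by have := hsz a c b hb; rw [Nat.succ_mul]; omega)
    (hf.sub_mono fun _ h => h.2)
    (B := fun a => sz (init a) + (l a).length * G a) (by fun_prop)
    (fun a k c hk h => h.trans (by have := Nat.mul_le_mul_right (G a) hk; omega))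

/-- Left fold whose accumulator grows by a polynomial amount in each round. -/
theorem foldl_grow {l : α → List β} {init : α → γ} {f : α → γ → β → γ} (hl : PT l)
    (hi : PT init) (hf : PT fun p : α × γ × β => f p.1 p.2.1 p.2.2)
    {G : α × β → ℕ} (hG : PB G) (hsz : ∀ a c b, b ∈ l a → sz (f a c b) ≤ sz c + G (a, b)) :
    PT fun a => (l a).foldl (f a) (init a) := by
  obtain ⟨G', h1, h2⟩ := PB.mem_bound hl hG
  exact foldl_grow' hl hi (hf.restrict _) h1 fun a c b hb => by
    have := hsz a c b hb; have := h2 a b hb; omega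

omit [Enc β] in
theorem foldl_cons_eq (l : List β) : ∀ c : List β,
    l.foldl (fun c b => b :: c) c = l.reverse ++ c := by
  induction l with
  | nil => intro c; rfl
  | cons b l ih => intro c; simp [ih]

@[fun_prop] theorem reverseAux {l l' : α → List β} (hl : PT l) (hl' : PT l') :
    PT (fun a => (l a).reverseAux (l' a)) :=
  (foldl_grow (f := fun _ c b => b :: c) hl hl' (by fun_prop) (G := fun p => sz p.2 + 1)
    (by fun_prop) fun a c b _ => by simp; omega).of_eq fun a => by
      rw [foldl_cons_eq, List.reverseAux_eq]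

@[fun_prop] theorem reverse {l : α → List β} (hl : PT l) : PT (fun a => (l a).reverse) :=
  hl.reverseAux (const [])

@[fun_prop] theorem append {l l' : α → List β} (hl : PT l) (hl' : PT l') :
    PT (fun a => l a ++ l' a) :=
  (hl.reverse.reverseAux hl').of_eq fun a => by simp [List.reverseAux_eq]

@[fun_prop] theorem concat {l : α → List β} {f : α → β} (hl : PT l) (hf : PT f) :
    PT (fun a => (l a).concat (f a)) :=
  (hl.append (hf.cons (const []))).of_eq fun a => by simp

/-- The most general right fold. -/
theorem foldr_gen {l : α → List β} {init : α → γ} {f : α → β → γ → γ} (hl : PT l) (hi : PT init)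
    (hf : PT fun p : {p : α × β × γ // ∃ pre rest, l p.1 = pre ++ p.2.1 :: rest ∧
      p.2.2 = rest.foldr (f p.1) (init p.1)} => f p.1.1 p.1.2.1 p.1.2.2)
    {B : α → ℕ} (hB : PB B)
    (hsz : ∀ a suf, suf <:+ l a → sz (suf.foldr (f a) (init a)) ≤ B a) :
    PT fun a => (l a).foldr (f a) (init a) := by
  have key : ∀ p : {p : α × γ × β // ∃ pre rest, (l p.1).reverse = pre ++ p.2.2 :: rest ∧
      p.2.1 = pre.foldl (fun c b => f p.1 b c) (init p.1)}, ∃ pre rest,
      l p.1.1 = pre ++ p.1.2.2 :: rest ∧ p.1.2.1 = rest.foldr (f p.1.1) (init p.1.1) := by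
    rintro ⟨p, pre, rest, h1, h2⟩
    refine ⟨rest.reverse, pre.reverse, ?_, by rw [List.foldr_reverse]; exact h2⟩
    rw [List.reverse_eq_iff] at h1; simpa using h1
  refine (foldl_gen (f := fun a c b => f a b c) hl.reverse hi
    (hf.comp_sub (fun p => (p.1.1, p.1.2.2, p.1.2.1)) (by fun_prop) key)
    hB fun a pre h => ?_).of_eq fun a => by rw [List.foldl_reverse]
  have := hsz a pre.reverse (by rw [← List.reverse_prefix]; simpa using h)
  rwa [List.foldr_reverse] at this

/-- Right fold, given a bound on the size of all partial results. -/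
theorem foldr_of_suffix {l : α → List β} {init : α → γ} {f : α → β → γ → γ} (hl : PT l)
    (hi : PT init) (hf : PT fun p : α × β × γ => f p.1 p.2.1 p.2.2) {B : α → ℕ} (hB : PB B)
    (hsz : ∀ a suf, suf <:+ l a → sz (suf.foldr (f a) (init a)) ≤ B a) :
    PT fun a => (l a).foldr (f a) (init a) :=
  foldr_gen hl hi (hf.restrict _) hB hsz

/-- Right fold with an invariant `I a k c` (`c` is a possible accumulator after `k` rounds). -/
theorem foldr_inv {l : α → List β} {init : α → γ} {f : α → β → γ → γ} (I : α → ℕ → γ → Prop)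
    (hl : PT l) (hi : PT init) (h0 : ∀ a, I a 0 (init a))
    (hI : ∀ a k c b, k < (l a).length → b ∈ l a → I a k c → I a (k + 1) (f a b c))
    (hf : PT fun p : {p : α × β × γ // (∃ k, k < (l p.1).length ∧ I p.1 k p.2.2) ∧
      p.2.1 ∈ l p.1} => f p.1.1 p.1.2.1 p.1.2.2)
    {B : α → ℕ} (hB : PB B) (hsz : ∀ a k c, k ≤ (l a).length → I a k c → sz c ≤ B a) :
    PT fun a => (l a).foldr (f a) (init a) :=
  (foldl_inv (f := fun a c b => f a b c) I hl.reverse hi h0
    (fun a k c b h1 h2 => hI a k c b (by simpa using h1) (by simpa using h2))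
    (hf.comp_sub (fun p => (p.1.1, p.1.2.2, p.1.2.1)) (by fun_prop)
      fun p => by simpa using p.2) hB
    (fun a k c h => hsz a k c (by simpa using h))).of_eq fun a => by rw [List.foldl_reverse]

/-- Right fold whose accumulator grows by a polynomial amount in each round. -/
theorem foldr_grow {l : α → List β} {init : α → γ} {f : α → β → γ → γ} (hl : PT l)
    (hi : PT init) (hf : PT fun p : α × β × γ => f p.1 p.2.1 p.2.2)
    {G : α × β → ℕ} (hG : PB G) (hsz : ∀ a b c, b ∈ l a → sz (f a b c) ≤ sz c + G (a, b)) :
    PT fun a => (l a).foldr (f a) (init a) :=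
  (foldl_grow (f := fun a c b => f a b c) hl.reverse hi
    (hf.comp (f := fun p : α × γ × β => (p.1, p.2.2, p.2.1)) (by fun_prop)) hG
    fun a c b h => hsz a b c (by simpa using h)).of_eq fun a => by rw [List.foldl_reverse]

/-- `map`, with a function that need only be fast on members of the list. -/
theorem map_mem {l : α → List β} {f : α → β → γ} (hl : PT l)
    (hf : PT fun p : {p : α × β // p.2 ∈ l p.1} => f p.1.1 p.1.2) :
    PT fun a => (l a).map (f a) := by
  obtain ⟨G, h1, h2⟩ := PB.mem_bound' hl (PB.sz hf)
  refine (foldl_grow' (f := fun a c b => f a b :: c) hl (const [])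
    (PT.cons (hf.comp_sub (fun p => (p.1.1, p.1.2.2)) (by fun_prop) fun p => p.2)
      id.val.snd.fst) (G := fun a => G a + 1) (by fun_prop)
    fun a c b h => ?_).reverse.of_eq fun a => ?_
  · have := h2 a b h
    simp at this ⊢; omega
  · have : ∀ (m : List β) (c : List γ), m.foldl (fun c b => f a b :: c) c =
        (m.map (f a)).reverse ++ c := by
      intro m
      induction m with
      | nil => intro c; rfl
      | cons b m ih => intro c; simp [ih]
    simp [this]

@[fun_prop] theorem map {l : α → List β} {f : α → β → γ} (hl : PT l)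
    (hf : PT fun p : α × β => f p.1 p.2) : PT fun a => (l a).map (f a) :=
  map_mem hl (hf.restrict _)

@[fun_prop] theorem flatten {l : α → List (List β)} (hl : PT l) : PT fun a => (l a).flatten :=
  (foldr_grow (f := fun _ b c => b ++ c) hl (const []) (by fun_prop) (G := fun p => sz p.2)
    (by fun_prop) fun a b c _ => by have := sz_append b c; simp only []; omega).of_eq fun a => by
      induction l a with
      | nil => rfl
      | cons b m ih => simp [ih]

theorem flatMap_mem {l : α → List β} {f : α → β → List γ} (hl : PT l)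
    (hf : PT fun p : {p : α × β // p.2 ∈ l p.1} => f p.1.1 p.1.2) :
    PT fun a => (l a).flatMap (f a) :=
  (map_mem hl hf).flatten.of_eq fun _ => List.flatMap_def.symm

@[fun_prop] theorem flatMap {l : α → List β} {f : α → β → List γ} (hl : PT l)
    (hf : PT fun p : α × β => f p.1 p.2) : PT fun a => (l a).flatMap (f a) :=
  flatMap_mem hl (hf.restrict _)

theorem filterMap_mem {l : α → List β} {f : α → β → Option γ} (hl : PT l)
    (hf : PT fun p : {p : α × β // p.2 ∈ l p.1} => f p.1.1 p.1.2) :
    PT fun a => (l a).filterMap (f a) :=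
  (flatMap_mem (f := fun a b => (f a b).toList) hl hf.option_toList).of_eq fun a => by
    rw [List.filterMap_eq_flatMap_toList]

@[fun_prop] theorem filterMap {l : α → List β} {f : α → β → Option γ} (hl : PT l)
    (hf : PT fun p : α × β => f p.1 p.2) : PT fun a => (l a).filterMap (f a) :=
  filterMap_mem hl (hf.restrict _)

theorem filter_mem {l : α → List β} {f : α → β → Bool} (hl : PT l)
    (hf : PT fun p : {p : α × β // p.2 ∈ l p.1} => f p.1.1 p.1.2) :
    PT fun a => (l a).filter (f a) :=
  (filterMap_mem (f := fun a b => bif f a b then Option.some b else none) hl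
    (cond hf id.val.snd.some (const none))).of_eq fun a => by
      induction l a with
      | nil => rfl
      | cons b m ih => cases h : f a b <;> simp [h, ih]

@[fun_prop] theorem filter {l : α → List β} {f : α → β → Bool} (hl : PT l)
    (hf : PT fun p : α × β => f p.1 p.2) : PT fun a => (l a).filter (f a) :=
  filter_mem hl (hf.restrict _)

theorem any_mem {l : α → List β} {f : α → β → Bool} (hl : PT l)
    (hf : PT fun p : {p : α × β // p.2 ∈ l p.1} => f p.1.1 p.1.2) :
    PT fun a => (l a).any (f a) :=
  (filter_mem hl hf).isEmpty.bnot.of_eq fun a => by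
    rw [Bool.eq_iff_iff]; simp [List.filter_eq_nil_iff]

@[fun_prop] theorem any {l : α → List β} {f : α → β → Bool} (hl : PT l)
    (hf : PT fun p : α × β => f p.1 p.2) : PT fun a => (l a).any (f a) :=
  any_mem hl (hf.restrict _)

theorem all_mem {l : α → List β} {f : α → β → Bool} (hl : PT l)
    (hf : PT fun p : {p : α × β // p.2 ∈ l p.1} => f p.1.1 p.1.2) :
    PT fun a => (l a).all (f a) :=
  (any_mem (f := fun a b => !f a b) hl hf.bnot).bnot.of_eq fun a => by
    rw [Bool.eq_iff_iff]; simp

@[fun_prop] theorem all {l : α → List β} {f : α → β → Bool} (hl : PT l)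
    (hf : PT fun p : α × β => f p.1 p.2) : PT fun a => (l a).all (f a) :=
  all_mem hl (hf.restrict _)

theorem bex_mem {l : α → List β} {q : α → β → Prop} (hl : PT l)
    (hq : PT fun p : {p : α × β // p.2 ∈ l p.1} => q p.1.1 p.1.2) :
    PT fun a => ∃ b ∈ l a, q a b := by
  classical
  exact (any_mem (f := fun a b => Decidable.decide (q a b)) hl hq.decide').eq_true.of_iff
    fun a => by simp

/-- Bounded existential quantifier over a list. -/
theorem bex {l : α → List β} {q : α → β → Prop} (hl : PT l)
    (hq : PT fun p : α × β => q p.1 p.2) : PT fun a => ∃ b ∈ l a, q a b :=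
  bex_mem hl (hq.restrict _)

theorem ball_mem {l : α → List β} {q : α → β → Prop} (hl : PT l)
    (hq : PT fun p : {p : α × β // p.2 ∈ l p.1} => q p.1.1 p.1.2) :
    PT fun a => ∀ b ∈ l a, q a b :=
  (bex_mem (q := fun a b => ¬ q a b) hl hq.not).not.of_iff fun a => by simp

/-- Bounded universal quantifier over a list. -/
theorem ball {l : α → List β} {q : α → β → Prop} (hl : PT l)
    (hq : PT fun p : α × β => q p.1 p.2) : PT fun a => ∀ b ∈ l a, q a b :=
  ball_mem hl (hq.restrict _)

@[fun_prop] theorem mem {l : α → List β} {f : α → β} (hl : PT l) (hf : PT f) :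
    PT fun a => f a ∈ l a :=
  (bex (q := fun a b => b = f a) hl (by fun_prop)).of_iff fun a => by simp

@[fun_prop] theorem contains [BEq β] [LawfulBEq β] {l : α → List β} {f : α → β} (hl : PT l)
    (hf : PT f) : PT fun a => (l a).contains (f a) :=
  (any (f := fun a b => f a == b) hl (by fun_prop)).of_eq fun a => by
    rw [List.contains_eq_any_beq]

@[fun_prop] theorem subset {l l' : α → List β} (hl : PT l) (hl' : PT l') :
    PT fun a => l a ⊆ l' a :=
  (ball (q := fun a b => b ∈ l' a) hl (by fun_prop)).of_iff fun _ => Iff.rfl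

theorem find?_mem {l : α → List β} {f : α → β → Bool} (hl : PT l)
    (hf : PT fun p : {p : α × β // p.2 ∈ l p.1} => f p.1.1 p.1.2) :
    PT fun a => (l a).find? (f a) :=
  (filter_mem hl hf).head?.of_eq fun a => by simp

@[fun_prop] theorem find? {l : α → List β} {f : α → β → Bool} (hl : PT l)
    (hf : PT fun p : α × β => f p.1 p.2) : PT fun a => (l a).find? (f a) :=
  find?_mem hl (hf.restrict _)

@[fun_prop] theorem findSome? {l : α → List β} {f : α → β → Option γ} (hl : PT l)
    (hf : PT fun p : α × β => f p.1 p.2) : PT fun a => (l a).findSome? (f a) :=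
  (filterMap hl hf).head?.of_eq fun a => by simp

@[fun_prop] theorem getLast? {l : α → List β} (hl : PT l) : PT fun a => (l a).getLast? :=
  hl.reverse.head?.of_eq fun a => by simp

@[fun_prop] theorem getLastD {l : α → List β} {d : α → β} (hl : PT l) (hd : PT d) :
    PT fun a => (l a).getLastD (d a) :=
  (hl.getLast?.option_getD hd).of_eq fun a => by simp

@[fun_prop] theorem dropLast {l : α → List β} (hl : PT l) : PT fun a => (l a).dropLast :=
  hl.reverse.tail.reverse.of_eq fun a => by simp

/-- One round of `zip`. -/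
def zipStep (s : List γ × List (β × γ)) (b : β) : List γ × List (β × γ) :=
  List.casesOn (motive := fun _ => List γ × List (β × γ)) s.1 s fun c t => (t, (b, c) :: s.2)

@[fun_prop] theorem zip {l : α → List β} {l' : α → List γ} (hl : PT l) (hl' : PT l') :
    PT fun a => (l a).zip (l' a) := by
  refine (foldl_grow (f := fun _ => zipStep) (init := fun a => (l' a, [])) hl (by fun_prop)
    (by unfold zipStep; fun_prop) (G := fun p => sz p.2 + 1) (by fun_prop)
    ?_).snd.reverse.of_eq fun a => ?_
  · rintro a ⟨_ | ⟨c, t⟩, acc⟩ b _ <;> simp [zipStep]; omega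
  · have : ∀ (m : List β) (m' : List γ) (acc : List (β × γ)),
        (m.foldl zipStep (m', acc)).2 = (m.zip m').reverse ++ acc := by
      intro m
      induction m with
      | nil => intros; simp
      | cons b m ih => rintro (_ | ⟨c, t⟩) acc <;> simp [zipStep, ih]
    simp [this]

@[fun_prop] theorem zipWith {l : α → List β} {l' : α → List γ} {f : α → β → γ → δ} (hl : PT l)
    (hl' : PT l') (hf : PT fun p : α × β × γ => f p.1 p.2.1 p.2.2) :
    PT fun a => List.zipWith (f a) (l a) (l' a) :=
  (map (f := fun a q => f a q.1 q.2) (hl.zip hl') hf).of_eq fun a => by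
    rw [List.map_zip_eq_zipWith]; rfl

@[fun_prop] theorem product {l : α → List β} {l' : α → List γ} (hl : PT l) (hl' : PT l') :
    PT fun a => (l a).product (l' a) := by
  unfold List.product; fun_prop

@[fun_prop] theorem sprod {l : α → List β} {l' : α → List γ} (hl : PT l) (hl' : PT l') :
    PT fun a => l a ×ˢ l' a := hl.product hl'

@[fun_prop] theorem takeWhile {l : α → List β} {f : α → β → Bool} (hl : PT l)
    (hf : PT fun p : α × β => f p.1 p.2) : PT fun a => (l a).takeWhile (f a) := by
  refine (foldr_grow (f := fun a b (c : List β) => bif f a b then b :: c else [])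
    (init := fun _ => []) hl (by fun_prop) (by fun_prop) (G := fun p => sz p.2 + 1)
    (by fun_prop) fun a b c _ => ?_).of_eq fun a => ?_
  · have := one_le_sz c
    cases f a b <;> simp <;> omega
  · induction l a with
    | nil => rfl
    | cons b m ih => cases h : f a b <;> simp [h, ih]

@[fun_prop] theorem dropWhile {l : α → List β} {f : α → β → Bool} (hl : PT l)
    (hf : PT fun p : α × β => f p.1 p.2) : PT fun a => (l a).dropWhile (f a) := by
  refine (foldl_grow (l := fun a => (l a).takeWhile (f a)) (f := fun _ (c : List β) _ => c.tail)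
    (init := l) (by fun_prop) hl (by fun_prop) (G := fun _ => 0)
    (by fun_prop) fun a c _ _ => sz_sublist (List.tail_sublist c)).of_eq fun a => ?_
  induction l a with
  | nil => rfl
  | cons b m ih => cases h : f a b <;> simp [h, ih]

/-! ### Unary numbers -/

/-- The unary number as a list. -/
theorem un_list {u : α → Un} (hu : PT u) : PT fun a => List.replicate (u a).n () :=
  hu.of_enc_eq fun _ => rfl

@[fun_prop] theorem un_length {l : α → List β} (hl : PT l) : PT fun a => Un.mk (l a).length :=
  (map (f := fun _ _ => ()) hl (const ())).of_enc_eq fun a => by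
    rw [enc_un, List.map_const']

omit [Enc γ] in
theorem foldl_replicate (f : γ → γ) (n : ℕ) : ∀ c : γ,
    (List.replicate n ()).foldl (fun c _ => f c) c = f^[n] c := by
  induction n with
  | zero => intro c; rfl
  | succ n ih => intro c; simp [List.replicate_succ, ih]

/-- Iteration with an invariant `I a k c` (`c` is a possible state after `k` rounds). -/
theorem iterate_inv_un {n : α → ℕ} {s : α → γ} {f : α → γ → γ} (I : α → ℕ → γ → Prop)
    (hn : PT fun a => Un.mk (n a)) (hs : PT s) (h0 : ∀ a, I a 0 (s a))
    (hI : ∀ a k c, k < n a → I a k c → I a (k + 1) (f a c))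
    (hf : PT fun p : {p : α × γ // ∃ k, k < n p.1 ∧ I p.1 k p.2} => f p.1.1 p.1.2)
    {B : α → ℕ} (hB : PB B) (hsz : ∀ a k c, k ≤ n a → I a k c → sz c ≤ B a) :
    PT fun a => (f a)^[n a] (s a) :=
  (foldl_inv (f := fun a c _ => f a c) I hn.un_list hs h0
    (fun a k c _ h _ => hI a k c (by simpa using h))
    (hf.comp_sub (fun p => (p.1.1, p.1.2.1)) (by fun_prop) fun p => by simpa using p.2.1) hB
    (fun a k c h => hsz a k c (by simpa using h))).of_eq fun a => foldl_replicate _ _ _

/-- Iteration, given a bound on the size of all intermediate states. -/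
theorem iterate_un {n : α → ℕ} {s : α → γ} {f : α → γ → γ}
    (hn : PT fun a => Un.mk (n a)) (hs : PT s) (hf : PT fun p : α × γ => f p.1 p.2)
    {B : α → ℕ} (hB : PB B) (hsz : ∀ a k, k ≤ n a → sz ((f a)^[k] (s a)) ≤ B a) :
    PT fun a => (f a)^[n a] (s a) :=
  iterate_inv_un (fun a k c => c = (f a)^[k] (s a)) hn hs (fun _ => rfl)
    (fun a k c _ h => by rw [h, Function.iterate_succ_apply']) (hf.restrict _) hB
    fun a k c hk h => by rw [h]; exact hsz a k hk

theorem replicate_un {n : α → ℕ} {f : α → β} (hn : PT fun a => Un.mk (n a)) (hf : PT f) :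
    PT fun a => List.replicate (n a) (f a) :=
  (map (f := fun a _ => f a) hn.un_list (by fun_prop)).of_eq fun a => by simp

theorem take_un {n : α → ℕ} {l : α → List β} (hn : PT fun a => Un.mk (n a)) (hl : PT l) :
    PT fun a => (l a).take (n a) :=
  (map (f := fun _ (q : β × Unit) => q.1) (hl.zip hn.un_list) (by fun_prop)).of_eq fun a => by
    have : ∀ (k : ℕ) (m : List β),
        (m.zip (List.replicate k ())).map (fun q => q.1) = m.take k := by
      intro k
      induction k with
      | zero => simp
      | succ k ih => rintro (_ | ⟨b, m⟩) <;> simp [List.replicate_succ, ih]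
    exact this _ _

theorem drop_un {n : α → ℕ} {l : α → List β} (hn : PT fun a => Un.mk (n a)) (hl : PT l) :
    PT fun a => (l a).drop (n a) :=
  (foldl_grow (f := fun _ (c : List β) _ => c.tail) hn.un_list hl (by fun_prop) (G := fun _ => 0)
    (by fun_prop) fun a c _ _ => sz_sublist (List.tail_sublist c)).of_eq fun a => by
      rw [foldl_replicate, List.tail_iterate]

theorem un_add {n m : α → ℕ} (hn : PT fun a => Un.mk (n a)) (hm : PT fun a => Un.mk (m a)) :
    PT fun a => Un.mk (n a + m a) :=
  (hn.un_list.append hm.un_list).un_length.of_eq fun a => by simp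


end PT

end Crest.Agent.Lib.PT
end

-- ▼ part PVb/Lib/PT/Nat
section

/-!
# Polynomial time: arithmetic on binary natural numbers
-/

set_option linter.dupNamespace false

namespace Crest.Agent.Lib.PT

universe u v w x y

theorem ofBits_lt (l : List Bool) : ofBits l < 2 ^ l.length := by
  induction l with
  | nil => simp
  | cons b l ih => cases b <;> simp [Nat.bit_val, pow_succ] <;> omega

theorem ofBits_append (l l' : List Bool) :
    ofBits (l ++ l') = ofBits l + 2 ^ l.length * ofBits l' := by
  induction l with
  | nil => simp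
  | cons b l ih => simp [Nat.bit_val, ih, pow_succ]; ring

theorem ofBits_suffix_le {l l' : List Bool} (h : l <:+ l') : ofBits l ≤ ofBits l' := by
  obtain ⟨t, rfl⟩ := h
  rw [ofBits_append]
  have : 1 * ofBits l ≤ 2 ^ t.length * ofBits l := Nat.mul_le_mul_right _ Nat.one_le_two_pow
  omega

theorem sz_bit_le (b : Bool) (n : ℕ) : sz (Nat.bit b n) ≤ sz n + 4 := by
  by_cases h : n = 0 → b = true
  · have := sz_bool_le b
    rw [sz_nat, Nat.bits_append_bit _ _ h, sz_cons, ← sz_nat]; omega
  · obtain ⟨rfl, h⟩ := Classical.not_imp.1 h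
    cases b <;> simp_all

theorem sz_div2_le (n : ℕ) : sz n.div2 ≤ sz n := by
  rw [sz_nat, Nat.div2_bits_eq_tail]; exact sz_sublist (List.tail_sublist _)

variable {α : Type u} {β : Type v} {γ : Type w} {δ : Type x} [Enc α] [Enc β] [Enc γ] [Enc δ]

namespace PT

@[fun_prop] theorem bits {n : α → ℕ} (hn : PT n) : PT fun a => (n a).bits :=
  hn.of_enc_eq fun _ => rfl

@[fun_prop] theorem bodd {n : α → ℕ} (hn : PT n) : PT fun a => (n a).bodd :=
  hn.bits.headI.of_eq fun _ => (Nat.bodd_eq_bits_head _).symm

@[fun_prop] theorem div2 {n : α → ℕ} (hn : PT n) : PT fun a => (n a).div2 :=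
  hn.bits.tail.of_enc_eq fun a => by rw [enc_nat, Nat.div2_bits_eq_tail]

@[fun_prop] theorem bit {b : α → Bool} {n : α → ℕ} (hb : PT b) (hn : PT n) :
    PT fun a => Nat.bit (b a) (n a) := by
  classical
  refine (ite (p := fun a => n a = 0 ∧ b a = false) (by fun_prop) (const [])
    (hb.cons hn.bits)).of_enc_eq fun a => ?_
  rw [enc_nat]
  split_ifs with h
  · rw [h.1, h.2]; rfl
  · rw [Nat.bits_append_bit _ _ (by simpa using h)]

@[fun_prop] theorem ofBits {l : α → List Bool} (hl : PT l) : PT fun a => ofBits (l a) :=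
  foldr_grow (f := fun _ b n => Nat.bit b n) hl (const 0) (by fun_prop) (G := fun _ => 4)
    (by fun_prop) fun _ b n _ => sz_bit_le b n

@[fun_prop] theorem toNat {b : α → Bool} (hb : PT b) : PT fun a => (b a).toNat :=
  (of_finite Bool.toNat).comp hb

theorem un_size {n : α → ℕ} (hn : PT n) : PT fun a => Un.mk (n a).size :=
  hn.bits.un_length.of_eq fun a => by rw [Nat.size_eq_bits_len]

/-- One round of subtraction. -/
def subStep (s : ℕ × ℕ × Bool × List Bool) : ℕ × ℕ × Bool × List Bool :=
  (s.1.div2, s.2.1.div2, (!s.1.bodd && (s.2.1.bodd || s.2.2.1)) || (s.2.1.bodd && s.2.2.1),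
    xor (xor s.1.bodd s.2.1.bodd) s.2.2.1 :: s.2.2.2)

theorem subStep_iter (x y k : ℕ) : ∃ x' y' br acc, subStep^[k] (x, y, false, []) =
    (x', y', br, acc) ∧ acc.length = k ∧ 2 ^ k * x' ≤ x ∧ 2 ^ k * y' ≤ y ∧ sz x' ≤ sz x ∧
    sz y' ≤ sz y ∧
    x + 2 ^ k * (y' + br.toNat) = y + Lib.PT.ofBits acc.reverse + 2 ^ k * x' := by
  induction k with
  | zero => exact ⟨x, y, false, [], rfl, rfl, by simp, by simp, le_rfl, le_rfl, by simp; omega⟩
  | succ k ih =>
    obtain ⟨x', y', br, acc, e, h1, h2, h3, h4, h5, h6⟩ := ih
    rw [Function.iterate_succ_apply', e]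
    refine ⟨_, _, _, _, rfl, by simp [h1], ?_, ?_, (sz_div2_le _).trans h4,
      (sz_div2_le _).trans h5, ?_⟩
    · refine le_trans ?_ h2
      rw [pow_succ, mul_assoc]
      exact Nat.mul_le_mul_left _ (by have := Nat.bodd_add_div2 x'; simp only []; omega)
    · refine le_trans ?_ h3
      rw [pow_succ, mul_assoc]
      exact Nat.mul_le_mul_left _ (by have := Nat.bodd_add_div2 y'; simp only []; omega)
    · simp only [List.reverse_cons, ofBits_append, List.length_reverse, h1]
      have e1 := Nat.bodd_add_div2 x'
      have e2 := Nat.bodd_add_div2 y'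
      generalize x'.div2 = x'' at e1 ⊢
      generalize y'.div2 = y'' at e2 ⊢
      generalize x'.bodd = bx at e1 ⊢
      generalize y'.bodd = by' at e2 ⊢
      subst e1 e2
      rw [pow_succ]
      generalize 2 ^ k = P at *
      cases bx <;> cases by' <;> cases br <;> simp [Nat.bit_val] at h6 ⊢ <;> nlinarith

@[fun_prop] theorem nat_sub {n m : α → ℕ} (hn : PT n) (hm : PT m) : PT fun a => n a - m a := by
  have h := iterate_un (n := fun a => (n a).size + (m a).size) (f := fun _ => subStep)
    (s := fun a => (n a, m a, false, [])) (hn.un_size.un_add hm.un_size) (by fun_prop)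
    (by unfold subStep; fun_prop)
    (B := fun a => sz (n a) + sz (m a) + 4 * ((n a).size + (m a).size) + 7) (by fun_prop) ?_
  · refine (cond h.snd.snd.fst (const 0) h.snd.snd.snd.reverse.ofBits).of_eq fun a => ?_
    obtain ⟨x', y', br, acc, e, h1, h2, h3, h4, h5, h6⟩ :=
      subStep_iter (n a) (m a) ((n a).size + (m a).size)
    have g1 : n a < 2 ^ ((n a).size + (m a).size) := Nat.size_le.1 (by omega)
    have g2 : m a < 2 ^ ((n a).size + (m a).size) := Nat.size_le.1 (by omega)
    have g3 := ofBits_lt acc.reverse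
    rw [List.length_reverse, h1] at g3
    simp only [e]
    generalize 2 ^ ((n a).size + (m a).size) = P at *
    obtain rfl : x' = 0 := by
      by_contra hx
      have := Nat.mul_le_mul_left P (Nat.one_le_iff_ne_zero.2 hx); omega
    obtain rfl : y' = 0 := by
      by_contra hx
      have := Nat.mul_le_mul_left P (Nat.one_le_iff_ne_zero.2 hx); omega
    cases br <;> simp at h6 ⊢ <;> omega
  · intro a k hk
    obtain ⟨x', y', br, acc, e, h1, h2, h3, h4, h5, h6⟩ := subStep_iter (n a) (m a) k
    have := sz_bool_le br
    have := sz_boolList_le acc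
    simp only [e, sz_mk]; omega

@[fun_prop] theorem nat_le {n m : α → ℕ} (hn : PT n) (hm : PT m) : PT fun a => n a ≤ m a :=
  ((hn.nat_sub hm).eq (const 0)).of_iff fun _ => Nat.sub_eq_zero_iff_le

@[fun_prop] theorem nat_lt {n m : α → ℕ} (hn : PT n) (hm : PT m) : PT fun a => n a < m a :=
  (hm.nat_le hn).not.of_iff fun _ => Nat.not_le

@[fun_prop] theorem nat_ge {n m : α → ℕ} (hn : PT n) (hm : PT m) : PT fun a => n a ≥ m a :=
  hm.nat_le hn

@[fun_prop] theorem nat_gt {n m : α → ℕ} (hn : PT n) (hm : PT m) : PT fun a => n a > m a :=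
  hm.nat_lt hn

@[fun_prop] theorem nat_max {n m : α → ℕ} (hn : PT n) (hm : PT m) :
    PT fun a => max (n a) (m a) :=
  (ite (hn.nat_le hm) hm hn).of_eq fun _ => (max_def _ _).symm

@[fun_prop] theorem nat_min {n m : α → ℕ} (hn : PT n) (hm : PT m) :
    PT fun a => min (n a) (m a) :=
  (ite (hn.nat_le hm) hn hm).of_eq fun _ => (min_def _ _).symm

theorem two_pow_un {n : α → ℕ} (hn : PT fun a => Un.mk (n a)) : PT fun a => 2 ^ n a :=
  ((hn.replicate_un (const false)).append (const [true])).ofBits.of_eq fun a => by
    have : ∀ k, Lib.PT.ofBits (List.replicate k false) = 0 := by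
      intro k
      induction k with
      | zero => rfl
      | succ k ih => simp [List.replicate_succ, ih]
    simp [ofBits_append, this, Nat.bit_val]

@[fun_prop] theorem nat_add {n m : α → ℕ} (hn : PT n) (hm : PT m) : PT fun a => n a + m a := by
  have h := two_pow_un ((hn.un_size.un_add hm.un_size).un_add (m := fun _ => 1) (const _))
  refine (h.nat_sub ((h.nat_sub hn).nat_sub hm)).of_eq fun a => ?_
  have g1 : n a < 2 ^ ((n a).size + (m a).size) := Nat.size_le.1 (by omega)
  have g2 : m a < 2 ^ ((n a).size + (m a).size) := Nat.size_le.1 (by omega)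
  rw [pow_succ]; omega

@[fun_prop] theorem nat_succ {n : α → ℕ} (hn : PT n) : PT fun a => (n a).succ :=
  hn.nat_add (const 1)

@[fun_prop] theorem nat_pred {n : α → ℕ} (hn : PT n) : PT fun a => (n a).pred :=
  hn.nat_sub (const 1)

@[fun_prop] theorem nat_mul {n m : α → ℕ} (hn : PT n) (hm : PT m) : PT fun a => n a * m a := by
  have key : ∀ (y : ℕ) (l : List Bool),
      l.foldr (fun b c => Nat.bit false c + bif b then y else 0) 0 = Lib.PT.ofBits l * y := by
    intro y l
    induction l with
    | nil => simp
    | cons b l ih => rw [List.foldr_cons, ih]; cases b <;> simp [Nat.bit_val] <;> ring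
  refine (foldr_of_suffix (f := fun a b c => Nat.bit false c + bif b then m a else 0) hn.bits
    (const 0) (by fun_prop) (B := fun a => 4 * ((n a).size + (m a).size) + 1) (by fun_prop)
    fun a s hs => ?_).of_eq fun a => by rw [key, ofBits_bits]
  rw [key]
  refine sz_nat_le_of_lt ?_
  have h1 := ofBits_suffix_le hs
  rw [ofBits_bits] at h1
  rw [pow_add]
  exact Nat.mul_lt_mul_of_le_of_lt ((h1.trans (Nat.lt_size_self _).le)) (Nat.lt_size_self _)
    (by positivity)

/-- One round of long division. -/
def divStep (y : ℕ) (b : Bool) (c : ℕ × ℕ) : ℕ × ℕ :=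
  if y ≤ Nat.bit b c.2 then (Nat.bit true c.1, Nat.bit b c.2 - y)
  else (Nat.bit false c.1, Nat.bit b c.2)

theorem divStep_foldr {y : ℕ} (hy : 0 < y) (l : List Bool) :
    l.foldr (divStep y) (0, 0) = (Lib.PT.ofBits l / y, Lib.PT.ofBits l % y) := by
  induction l with
  | nil => simp
  | cons b l ih =>
    rw [List.foldr_cons, ih, ofBits_cons]
    have h1 := Nat.div_add_mod (Lib.PT.ofBits l) y
    have h2 := Nat.mod_lt (Lib.PT.ofBits l) hy
    have h3 := Bool.toNat_le b
    generalize Lib.PT.ofBits l / y = q at *
    generalize Lib.PT.ofBits l % y = r at *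
    rw [← h1]
    unfold divStep
    simp only [Nat.bit_val, Bool.toNat_true, Bool.toNat_false]
    split_ifs with h
    · have := (Nat.div_mod_unique (a := 2 * (y * q + r) + b.toNat) (d := 2 * q + 1)
        (c := 2 * r + b.toNat - y) hy).2 ⟨by rw [mul_add, mul_one, mul_left_comm]; omega,
          by omega⟩
      rw [this.1, this.2]
    · have := (Nat.div_mod_unique (a := 2 * (y * q + r) + b.toNat) (d := 2 * q + 0)
        (c := 2 * r + b.toNat) hy).2 ⟨by rw [add_zero, mul_left_comm]; omega, by omega⟩
      rw [this.1, this.2]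

theorem nat_divmod {n m : α → ℕ} (hn : PT n) (hm : PT m) :
    PT fun a => (n a / m a, n a % m a) := by
  refine by_cases (p := fun a => m a = 0) (by fun_prop)
    (((const 0).pair (hn.restrict _)).of_eq fun a => by simp [a.2]) ?_
  have hn' := hn.restrict fun a => ¬ m a = 0
  have hm' := hm.restrict fun a => ¬ m a = 0
  refine (foldr_of_suffix (f := fun a => divStep (m a.1)) hn'.bits (const (0, 0))
    (by unfold divStep; fun_prop) (B := fun a => 4 * sz (n a.1) + 1) (by fun_prop)
    fun a s hs => ?_).of_eq fun a => by rw [divStep_foldr (Nat.pos_of_ne_zero a.2), ofBits_bits]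
  rw [divStep_foldr (Nat.pos_of_ne_zero a.2)]
  have h1 := ofBits_suffix_le hs
  rw [ofBits_bits] at h1
  have h2 := sz_nat_le_of_le ((Nat.div_le_self _ (m a.1)).trans h1)
  have h3 := sz_nat_le_of_le ((Nat.mod_le _ (m a.1)).trans h1)
  simp only [sz_mk]; omega

@[fun_prop] theorem nat_div {n m : α → ℕ} (hn : PT n) (hm : PT m) : PT fun a => n a / m a :=
  (hn.nat_divmod hm).fst

@[fun_prop] theorem nat_mod {n m : α → ℕ} (hn : PT n) (hm : PT m) : PT fun a => n a % m a :=
  (hn.nat_divmod hm).snd

@[fun_prop] theorem nat_dvd {n m : α → ℕ} (hn : PT n) (hm : PT m) : PT fun a => n a ∣ m a :=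
  ((hm.nat_mod hn).eq (const 0)).of_iff fun _ => Nat.dvd_iff_mod_eq_zero.symm

@[fun_prop] theorem nat_even {n : α → ℕ} (hn : PT n) : PT fun a => Even (n a) :=
  ((hn.nat_mod (const 2)).eq (const 0)).of_iff fun _ => Nat.even_iff.symm

@[fun_prop] theorem nat_odd {n : α → ℕ} (hn : PT n) : PT fun a => Odd (n a) :=
  ((hn.nat_mod (const 2)).eq (const 1)).of_iff fun _ => Nat.odd_iff.symm

@[fun_prop] theorem nat_modEq {n m k : α → ℕ} (hk : PT k) (hn : PT n) (hm : PT m) :
    PT fun a => n a ≡ m a [MOD k a] := (hn.nat_mod hk).eq (hm.nat_mod hk)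

/-! ### Unary and binary -/

@[fun_prop] theorem length {l : α → List β} (hl : PT l) : PT fun a => (l a).length := by
  have key : ∀ l : List β, l.foldr (fun _ c => c + 1) 0 = l.length := by
    intro l
    induction l with
    | nil => rfl
    | cons b l ih => simp [ih]
  exact (foldr_of_suffix (f := fun _ _ c => c + 1) hl (const 0) (by fun_prop)
    (B := fun a => 4 * (l a).length + 1) (by fun_prop) fun a s hs => by
      have := hs.length_le
      have := sz_nat_le_self s.length
      rw [key]; omega).of_eq fun a => key _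

@[fun_prop] theorem un_n {u : α → Un} (hu : PT u) : PT fun a => (u a).n :=
  hu.un_list.length.of_eq fun a => by simp

/-- A polynomially bounded number can be written in unary. -/
@[fun_prop] theorem un_mk {n : α → ℕ} (hn : PT n) (hb : PB n) : PT fun a => Un.mk (n a) := by
  have key : ∀ l : List Bool, l.foldr (fun b (c : List Unit) =>
      c ++ c ++ bif b then [()] else []) [] = List.replicate (Lib.PT.ofBits l) () := by
    intro l
    induction l with
    | nil => rfl
    | cons b l ih =>
      rw [List.foldr_cons, ih, ofBits_cons, Nat.bit_val, two_mul, List.replicate_add,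
        List.replicate_add]
      cases b <;> rfl
  refine (foldr_of_suffix (f := fun _ b (c : List Unit) => c ++ c ++ bif b then [()] else [])
    hn.bits (const []) (by fun_prop) (B := fun a => n a * 2 + 1) (by fun_prop)
    fun a s hs => ?_).of_enc_eq fun a => by rw [key, ofBits_bits]; rfl
  have h1 := ofBits_suffix_le hs
  rw [ofBits_bits] at h1
  rw [key, sz_replicate]; simp; omega

@[fun_prop] theorem nat_size {n : α → ℕ} (hn : PT n) : PT fun a => (n a).size := hn.un_size.un_n



/-- Iteration with an invariant `I a k c` (`c` is a possible state after `k` rounds). -/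
theorem iterate_inv {n : α → ℕ} {s : α → γ} {f : α → γ → γ} (I : α → ℕ → γ → Prop)
    (hn : PT n) (hb : PB n) (hs : PT s) (h0 : ∀ a, I a 0 (s a))
    (hI : ∀ a k c, k < n a → I a k c → I a (k + 1) (f a c))
    (hf : PT fun p : {p : α × γ // ∃ k, k < n p.1 ∧ I p.1 k p.2} => f p.1.1 p.1.2)
    {B : α → ℕ} (hB : PB B) (hsz : ∀ a k c, k ≤ n a → I a k c → sz c ≤ B a) :
    PT fun a => (f a)^[n a] (s a) :=
  iterate_inv_un I (hn.un_mk hb) hs h0 hI hf hB hsz

/-- Iteration, given a bound on the size of all intermediate states. -/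
theorem iterate {n : α → ℕ} {s : α → γ} {f : α → γ → γ}
    (hn : PT n) (hb : PB n) (hs : PT s) (hf : PT fun p : α × γ => f p.1 p.2)
    {B : α → ℕ} (hB : PB B) (hsz : ∀ a k, k ≤ n a → sz ((f a)^[k] (s a)) ≤ B a) :
    PT fun a => (f a)^[n a] (s a) :=
  iterate_un (hn.un_mk hb) hs hf hB hsz

/-- Iteration of a map that increases sizes by a polynomial amount. -/
theorem iterate_grow {n : α → ℕ} {s : α → γ} {f : α → γ → γ}
    (hn : PT n) (hb : PB n) (hs : PT s) (hf : PT fun p : α × γ => f p.1 p.2)
    {G : α → ℕ} (hG : PB G) (hsz : ∀ a c, sz (f a c) ≤ sz c + G a) :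
    PT fun a => (f a)^[n a] (s a) :=
  iterate_inv (fun a k c => sz c ≤ sz (s a) + k * G a) hn hb hs (fun a => by simp)
    (fun a k c _ h => by have := hsz a c; rw [Nat.succ_mul]; omega) (hf.restrict _)
    (B := fun a => sz (s a) + n a * G a) (by fun_prop)
    fun a k c hk h => h.trans (by have := Nat.mul_le_mul_right (G a) hk; omega)

@[fun_prop] theorem nat_pow {n m : α → ℕ} (hn : PT n) (hm : PT m) (hb : PB m) :
    PT fun a => n a ^ m a := by
  have key : ∀ x k : ℕ, (fun c => c * x)^[k] 1 = x ^ k := fun x k => by simp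
  refine (iterate (f := fun a c => c * n a) hm hb (const 1) (by fun_prop)
    (B := fun a => 4 * ((n a).size * m a + 1) + 1) (by fun_prop) fun a k hk => ?_).of_eq
    fun a => key _ _
  rw [key]
  refine sz_nat_le_of_lt ?_
  calc n a ^ k ≤ (2 ^ (n a).size) ^ k := Nat.pow_le_pow_left (Nat.lt_size_self _).le _
    _ ≤ (2 ^ (n a).size) ^ m a := Nat.pow_le_pow_right (by positivity) hk
    _ < _ := by rw [← pow_mul]; exact Nat.pow_lt_pow_right (by omega) (by omega)

@[fun_prop] theorem nat_shiftLeft {n m : α → ℕ} (hn : PT n) (hm : PT m) (hb : PB m) :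
    PT fun a => n a <<< m a :=
  (hn.nat_mul ((const 2).nat_pow hm hb)).of_eq fun _ => (Nat.shiftLeft_eq _ _).symm

@[fun_prop] theorem nat_log2 {n : α → ℕ} (hn : PT n) : PT fun a => (n a).log2 :=
  (hn.nat_size.nat_sub (const 1)).of_eq fun a => by
    rcases Nat.eq_zero_or_pos (n a) with h | h
    · simp [h]
    · have h1 : (n a).size ≤ (n a).log2 + 1 := Nat.size_le.2 Nat.lt_log2_self
      have h2 : (n a).log2 < (n a).size := Nat.lt_size.2 (Nat.log2_self_le h.ne')
      omega


theorem gcd_loop (B k : ℕ) : ∀ x y : ℕ, x ≤ y → x * y < 2 ^ k → 4 * y.size + 1 ≤ B →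
    Loop (fun s : ℕ × ℕ => ¬ s.1 = 0) (fun s => (s.2 % s.1, s.1)) (2 * B + 1) (x, y)
      (0, Nat.gcd x y) k := by
  have hsz : ∀ x y : ℕ, x ≤ y → 4 * y.size + 1 ≤ B → sz (x, y) ≤ 2 * B + 1 := by
    intro x y h hB
    have := sz_nat_le x
    have := sz_nat_le y
    have := Nat.size_le_size h
    simp; omega
  induction k with
  | zero =>
    intro x y h1 h2 h3
    obtain rfl : x = 0 := by
      by_contra hx
      have : 1 * 1 ≤ x * y := Nat.mul_le_mul (by omega) (by omega)
      omega
    rw [Nat.gcd_zero_left]
    exact Loop.stop (by simp) (hsz _ _ h1 h3)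
  | succ k ih =>
    intro x y h1 h2 h3
    rcases Nat.eq_zero_or_pos x with rfl | hx
    · rw [Nat.gcd_zero_left]
      exact Loop.stop (by simp) (hsz _ _ h1 h3)
    · refine Loop.step (by simp; omega) (hsz _ _ h1 h3) ?_
      rw [Nat.gcd_rec]
      have g1 := Nat.mod_lt y hx
      have g2 : y % x + x ≤ y := by
        have := Nat.div_add_mod y x
        have : x * 1 ≤ x * (y / x) := Nat.mul_le_mul_left _ (Nat.div_pos h1 hx)
        omega
      refine ih _ _ g1.le ?_ (by have := Nat.size_le_size h1; simp only []; omega)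
      rw [pow_succ] at h2
      simp only []
      nlinarith

@[fun_prop] theorem nat_gcd {n m : α → ℕ} (hn : PT n) (hm : PT m) :
    PT fun a => Nat.gcd (n a) (m a) := by
  have h := loop (cont := fun s : ℕ × ℕ => ¬ s.1 = 0) (next := fun s => (s.2 % s.1, s.1))
    (by fun_prop) (by fun_prop) (s₀ := fun a => (min (n a) (m a), max (n a) (m a)))
    (out := fun a => (0, Nat.gcd (min (n a) (m a)) (max (n a) (m a)))) (by fun_prop)
    (N := fun a => (n a).size + (m a).size)
    (B := fun a => 2 * (4 * (max (n a) (m a)).size + 1) + 1) (by fun_prop) (by fun_prop)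
    fun a => gcd_loop _ _ _ _ min_le_max (by
      rw [min_mul_max, pow_add]
      exact Nat.mul_lt_mul_of_le_of_lt (Nat.lt_size_self _).le (Nat.lt_size_self _)
        (by positivity)) le_rfl
  refine h.snd.of_eq fun a => ?_
  rcases le_total (n a) (m a) with h | h <;> simp [h, Nat.gcd_comm]

@[fun_prop] theorem nat_lcm {n m : α → ℕ} (hn : PT n) (hm : PT m) :
    PT fun a => Nat.lcm (n a) (m a) := (hn.nat_mul hm).nat_div (hn.nat_gcd hm)

@[fun_prop] theorem nat_coprime {n m : α → ℕ} (hn : PT n) (hm : PT m) :
    PT fun a => Nat.Coprime (n a) (m a) := (hn.nat_gcd hm).eq (const 1)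

@[fun_prop] theorem polynomial_eval {n : α → ℕ} (hn : PT n) (P : Polynomial ℕ) :
    PT fun a => P.eval (n a) := by
  induction P using Polynomial.induction_on' with
  | add p q hp hq => simpa using hp.nat_add hq
  | monomial k c => simpa using (const c).nat_mul (hn.nat_pow (const k) (PB.const k))

end PT

end Crest.Agent.Lib.PT
namespace Crest.Agent.Lib.PT.PB
end Crest.Agent.Lib.PT.PB
end

-- ▼ part PVb/Lib/PT/List
section

/-!
# Polynomial time: list operations with numeric arguments, sums, sorting
-/

set_option linter.dupNamespace false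

namespace Crest.Agent.Lib.PT

universe u v w x y

variable {α : Type u} {β : Type v} {γ : Type w} {δ : Type x} [Enc α] [Enc β] [Enc γ] [Enc δ]

theorem PB.of_le_length {l : α → List β} (hl : PT l) {n : α → ℕ} (h : ∀ a, n a ≤ (l a).length) :
    PB n := (PB.length hl).mono h

@[fun_prop] theorem PB.log {f : α → ℕ} (b : ℕ) (hf : PT f) : PB fun a => Nat.log b (f a) :=
  (PB.size hf).mono fun a => by
    rcases Nat.lt_or_ge 1 b with hb | hb
    · rcases Nat.eq_zero_or_pos (f a) with h | h
      · simp [h]
      · exact (Nat.log_anti_left (c := 2) (by omega) hb).trans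
          (Nat.lt_size.2 (Nat.pow_log_le_self 2 h.ne')).le
    · simp [Nat.log_of_left_le_one hb]

@[fun_prop] theorem PB.log2 {f : α → ℕ} (hf : PT f) : PB fun a => (f a).log2 :=
  (PB.log 2 hf).mono fun _ => Nat.log2_eq_log_two.le

@[fun_prop] theorem PB.mod {f : α → ℕ} (hf : PB f) (g : α → ℕ) : PB fun a => f a % g a :=
  hf.mono fun _ => Nat.mod_le _ _

@[fun_prop] theorem PB.ite {p : α → Prop} [DecidablePred p] {f g : α → ℕ} (hf : PB f)
    (hg : PB g) : PB fun a => if p a then f a else g a :=
  (hf.add hg).mono fun a => by split_ifs <;> omega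

@[fun_prop] theorem PB.toNat (b : α → Bool) : PB fun a => (b a).toNat :=
  (PB.const 1).mono fun _ => Bool.toNat_le _

@[fun_prop] theorem PB.countP {l : α → List β} (hl : PT l) (p : α → β → Bool) :
    PB fun a => (l a).countP (p a) := PB.of_le_length hl fun _ => List.countP_le_length

@[fun_prop] theorem PB.count [BEq β] {l : α → List β} (hl : PT l) (f : α → β) :
    PB fun a => (l a).count (f a) := PB.of_le_length hl fun _ => List.count_le_length

@[fun_prop] theorem PB.idxOf [BEq β] [LawfulBEq β] {l : α → List β} (hl : PT l) (f : α → β) :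
    PB fun a => (l a).idxOf (f a) := PB.of_le_length hl fun _ => List.idxOf_le_length

@[fun_prop] theorem PB.findIdx {l : α → List β} (hl : PT l) (p : α → β → Bool) :
    PB fun a => (l a).findIdx (p a) := PB.of_le_length hl fun _ => List.findIdx_le_length

namespace PT

theorem un_min_length {n : α → ℕ} {l : α → List β} (hn : PT n) (hl : PT l) :
    PT fun a => Un.mk (min (n a) (l a).length) :=
  (hn.nat_min hl.length).un_mk (PB.min_right _ (PB.length hl))

@[fun_prop] theorem take {n : α → ℕ} {l : α → List β} (hn : PT n) (hl : PT l) :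
    PT fun a => (l a).take (n a) :=
  ((hn.un_min_length hl).take_un hl).of_eq fun _ => by rw [← List.take_eq_take_min]

@[fun_prop] theorem drop {n : α → ℕ} {l : α → List β} (hn : PT n) (hl : PT l) :
    PT fun a => (l a).drop (n a) :=
  ((hn.un_min_length hl).drop_un hl).of_eq fun a => by
    rcases le_total (n a) (l a).length with h | h
    · rw [min_eq_left h]
    · rw [min_eq_right h, List.drop_length, List.drop_eq_nil_of_le h]

@[fun_prop] theorem getElem? {n : α → ℕ} {l : α → List β} (hl : PT l) (hn : PT n) :
    PT fun a => (l a)[n a]? :=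
  (hn.drop hl).head?.of_eq fun _ => List.head?_drop

@[fun_prop] theorem getD {n : α → ℕ} {l : α → List β} {d : α → β} (hl : PT l) (hn : PT n)
    (hd : PT d) : PT fun a => (l a).getD (n a) (d a) :=
  (hl.getElem? hn).option_getD hd

@[fun_prop] theorem getI [Inhabited β] {n : α → ℕ} {l : α → List β} (hl : PT l) (hn : PT n) :
    PT fun a => (l a).getI (n a) := hl.getD hn (const default)

@[fun_prop] theorem getElem! [Inhabited β] {n : α → ℕ} {l : α → List β} (hl : PT l)
    (hn : PT n) : PT fun a => (l a)[n a]! :=
  (hl.getD hn (const default)).of_eq fun _ => by simp [List.getD_eq_getElem?_getD]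

@[fun_prop] theorem getElem {n : α → ℕ} {l : α → List β} (hl : PT l) (hn : PT n)
    (h : ∀ a, n a < (l a).length) : PT fun a => (l a)[n a]'(h a) :=
  ((hl.getElem? hn).option_get fun a => by simp [h a]).of_eq fun a => by simp

@[fun_prop] theorem replicate {n : α → ℕ} {f : α → β} (hn : PT n) (hb : PB n) (hf : PT f) :
    PT fun a => List.replicate (n a) (f a) := (hn.un_mk hb).replicate_un hf

@[fun_prop] theorem range {n : α → ℕ} (hn : PT n) (hb : PB n) :
    PT fun a => List.range (n a) := by
  have key : ∀ k i : ℕ, (fun c : ℕ × List ℕ => (c.1 + 1, c.2 ++ [c.1]))^[i] (0, []) =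
      (i, List.range i) := by
    intro k i
    induction i with
    | zero => rfl
    | succ i ih => rw [Function.iterate_succ_apply', ih, List.range_succ]
  refine (iterate (f := fun _ (c : ℕ × List ℕ) => (c.1 + 1, c.2 ++ [c.1])) hn hb (const (0, []))
    (by fun_prop) (B := fun a => (n a + 1) * (4 * n a + 3) + 2) (by fun_prop)
    fun a k hk => ?_).snd.of_eq fun a => by rw [key 0]
  rw [key 0, sz_mk]
  have h1 := sz_nat_le_self k
  have h2 := sz_list_le (l := List.range k) (B := 4 * n a + 1) fun i hi => by
    have := sz_nat_le_self i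
    have := List.mem_range.1 hi
    omega
  rw [List.length_range] at h2
  nlinarith

@[fun_prop] theorem range' {s n : α → ℕ} (hs : PT s) (hn : PT n) (hb : PB n) :
    PT fun a => List.range' (s a) (n a) :=
  (map (f := fun a i => s a + i) (hn.range hb) (by fun_prop)).of_eq fun _ =>
    List.range'_eq_map_range.symm

@[fun_prop] theorem zipIdx {l : α → List β} {s : α → ℕ} (hl : PT l) (hs : PT s) :
    PT fun a => (l a).zipIdx (s a) :=
  (hl.zip (hs.range' hl.length (PB.length hl))).of_eq fun _ => List.zipIdx_eq_zip_range'.symm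

@[fun_prop] theorem mapIdx {l : α → List β} {f : α → ℕ → β → γ} (hl : PT l)
    (hf : PT fun p : α × ℕ × β => f p.1 p.2.1 p.2.2) : PT fun a => (l a).mapIdx (f a) :=
  (map (f := fun a (q : β × ℕ) => f a q.2 q.1) (hl.zipIdx (const 0))
    (hf.comp_eq (fun p => (p.1, p.2.2, p.2.1)) (by fun_prop))).of_eq fun _ =>
      List.mapIdx_eq_zipIdx_map.symm

@[fun_prop] theorem set {l : α → List β} {n : α → ℕ} {f : α → β} (hl : PT l) (hn : PT n)
    (hf : PT f) : PT fun a => (l a).set (n a) (f a) :=
  PT.of_eq (g := fun a => if n a < (l a).length then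
    (l a).take (n a) ++ f a :: (l a).drop (n a + 1) else l a) (by fun_prop)
    fun _ => List.set_eq_take_append_cons_drop.symm

@[fun_prop] theorem eraseIdx {l : α → List β} {n : α → ℕ} (hl : PT l) (hn : PT n) :
    PT fun a => (l a).eraseIdx (n a) :=
  PT.of_eq (g := fun a => (l a).take (n a) ++ (l a).drop (n a + 1)) (by fun_prop)
    fun _ => (List.eraseIdx_eq_take_drop_succ _ _).symm

@[fun_prop] theorem modify {l : α → List β} {n : α → ℕ} {f : α → β → β} (hl : PT l) (hn : PT n)
    (hf : PT fun p : α × β => f p.1 p.2) : PT fun a => (l a).modify (n a) (f a) :=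
  (mapIdx (f := fun a i b => if n a = i then f a b else b) hl
    (ite (by fun_prop) (hf.comp_eq (fun p => (p.1, p.2.2)) (by fun_prop)) (by fun_prop))).of_eq
    fun a => by
      apply List.ext_getElem?
      intro i
      simp only [List.getElem?_mapIdx, List.getElem?_modify]
      rfl

@[fun_prop] theorem countP {l : α → List β} {p : α → β → Bool} (hl : PT l)
    (hp : PT fun q : α × β => p q.1 q.2) : PT fun a => (l a).countP (p a) :=
  (hl.filter hp).length.of_eq fun _ => List.countP_eq_length_filter.symm

@[fun_prop] theorem count [BEq β] [LawfulBEq β] {l : α → List β} {f : α → β} (hl : PT l)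
    (hf : PT f) : PT fun a => (l a).count (f a) :=
  countP (p := fun a b => b == f a) hl (by fun_prop)

@[fun_prop] theorem findIdx {l : α → List β} {p : α → β → Bool} (hl : PT l)
    (hp : PT fun q : α × β => p q.1 q.2) : PT fun a => (l a).findIdx (p a) :=
  (takeWhile (f := fun a b => !p a b) hl hp.bnot).length.of_eq fun a => by
    induction l a with
    | nil => rfl
    | cons b m ih => cases h : p a b <;> simp [h, ih, List.findIdx_cons]

@[fun_prop] theorem idxOf [BEq β] [LawfulBEq β] {l : α → List β} {f : α → β} (hl : PT l)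
    (hf : PT f) : PT fun a => (l a).idxOf (f a) :=
  findIdx (p := fun a b => b == f a) hl (by fun_prop)

@[fun_prop] theorem erase [BEq β] [LawfulBEq β] {l : α → List β} {f : α → β} (hl : PT l)
    (hf : PT f) : PT fun a => (l a).erase (f a) :=
  (hl.eraseIdx (hl.idxOf hf)).of_eq fun _ => by rw [List.eraseIdx_idxOf_eq_erase]

@[fun_prop] theorem lookup [BEq β] [LawfulBEq β] {l : α → List (β × γ)} {f : α → β} (hl : PT l)
    (hf : PT f) : PT fun a => (l a).lookup (f a) :=
  (findSome? (f := fun a (q : β × γ) => bif f a == q.1 then Option.some q.2 else none) hl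
    (by fun_prop)).of_eq fun a => by
      induction l a with
      | nil => rfl
      | cons b m ih =>
        obtain ⟨b, c⟩ := b
        cases h : f a == b <;> simp [h, ih, List.lookup_cons]

@[fun_prop] theorem tails {l : α → List β} (hl : PT l) : PT fun a => (l a).tails :=
  (map (f := fun a i => (l a).drop i) (range (n := fun a => (l a).length + 1) (by fun_prop)
    (by fun_prop)) (by fun_prop)).of_eq fun a => by
      apply List.ext_getElem <;> simp

@[fun_prop] theorem inits {l : α → List β} (hl : PT l) : PT fun a => (l a).inits :=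
  (map (f := fun a i => (l a).take i) (range (n := fun a => (l a).length + 1) (by fun_prop)
    (by fun_prop)) (by fun_prop)).of_eq fun a => by
      apply List.ext_getElem <;> simp

@[fun_prop] theorem isPrefix {l l' : α → List β} (hl : PT l) (hl' : PT l') :
    PT fun a => l a <+: l' a :=
  (hl.eq (hl.length.take hl')).of_iff fun _ => List.prefix_iff_eq_take.symm

@[fun_prop] theorem isSuffix {l l' : α → List β} (hl : PT l) (hl' : PT l') :
    PT fun a => l a <:+ l' a :=
  (hl.reverse.isPrefix hl'.reverse).of_iff fun _ => List.reverse_prefix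

/-- Pairwise relations on a list. -/
@[fun_prop] theorem pairwise {l : α → List β} {r : α → β → β → Prop} (hl : PT l)
    (hr : PT fun p : α × β × β => r p.1 p.2.1 p.2.2) : PT fun a => (l a).Pairwise (r a) := by
  have h1 : PT fun p : α × List β => ∀ b ∈ p.2.take 1, ∀ c ∈ p.2.tail, r p.1 b c :=
    ball (by fun_prop) (ball (by fun_prop)
      (hr.comp_eq (fun p => (p.1.1.1, p.1.2, p.2)) (by fun_prop)))
  refine (ball (q := fun a t => ∀ b ∈ t.take 1, ∀ c ∈ t.tail, r a b c) hl.tails h1).of_iff
    fun a => ?_
  induction l a with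
  | nil => simp
  | cons b m ih => simp only [List.tails_cons, List.forall_mem_cons, ih]; simp

@[fun_prop] theorem nodup {l : α → List β} (hl : PT l) : PT fun a => (l a).Nodup :=
  pairwise (r := fun _ b c => b ≠ c) hl (by fun_prop)

@[fun_prop] theorem dedup [DecidableEq β] {l : α → List β} (hl : PT l) :
    PT fun a => (l a).dedup :=
  (foldr_grow (f := fun _ b c => if b ∈ c then c else b :: c) hl (const []) (by fun_prop)
    (G := fun p => sz p.2 + 1) (by fun_prop)
    fun a b c _ => by split_ifs <;> simp; omega).of_eq fun a => by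
      induction l a with
      | nil => rfl
      | cons b m ih => rw [List.foldr_cons, ih, List.dedup_cons']

@[fun_prop] theorem perm {l l' : α → List β} (hl : PT l) (hl' : PT l') :
    PT fun a => (l a).Perm (l' a) := by
  classical
  refine (ball (q := fun a b => (l a).count b = (l' a).count b) (hl.append hl')
    (by fun_prop)).of_iff fun a => ?_
  rw [List.perm_iff_count]
  refine ⟨fun h b => ?_, fun h b _ => h b⟩
  by_cases hb : b ∈ l a ++ l' a
  · exact h b hb
  · rw [List.mem_append, not_or] at hb
    rw [List.count_eq_zero_of_not_mem hb.1, List.count_eq_zero_of_not_mem hb.2]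

@[fun_prop] theorem orderedInsert {r : α → β → β → Prop} [∀ a, DecidableRel (r a)]
    {f : α → β} {l : α → List β} (hr : PT fun p : α × β × β => r p.1 p.2.1 p.2.2) (hf : PT f)
    (hl : PT l) : PT fun a => (l a).orderedInsert (r a) (f a) := by
  have h : PT fun p : α × β => Decidable.decide (¬ r p.1 (f p.1) p.2) :=
    (hr.comp_eq (fun p => (p.1, f p.1, p.2)) (by fun_prop)).not.decide'
  exact ((hl.takeWhile (f := fun a b => Decidable.decide (¬ r a (f a) b)) h).append (hf.cons
    (hl.dropWhile (f := fun a b => Decidable.decide (¬ r a (f a) b)) h))).of_eq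
    fun _ => (List.orderedInsert_eq_take_drop _ _ _).symm

theorem sz_perm {l l' : List β} (h : l.Perm l') : sz l = sz l' := by
  induction h with
  | nil => rfl
  | cons _ _ ih => simp [ih]
  | swap => simp; omega
  | trans _ _ ih1 ih2 => exact ih1.trans ih2

@[fun_prop] theorem insertionSort {r : α → β → β → Prop} [∀ a, DecidableRel (r a)]
    {l : α → List β} (hr : PT fun p : α × β × β => r p.1 p.2.1 p.2.2) (hl : PT l) :
    PT fun a => (l a).insertionSort (r a) :=
  foldr_grow (f := fun a b c => c.orderedInsert (r a) b) hl (const [])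
    (orderedInsert (r := fun p : α × β × List β => r p.1)
      (hr.comp_eq (fun p => (p.1.1, p.2)) (by fun_prop)) (by fun_prop) (by fun_prop))
    (G := fun p => sz p.2 + 1) (by fun_prop) fun a b c _ => by
      rw [sz_perm (List.perm_orderedInsert _ _ _)]; simp; omega

/-! ### Sums and products of natural numbers -/

theorem sum_lt_two_pow (l : List ℕ) : l.sum < 2 ^ sz l := by
  induction l with
  | nil => simp
  | cons b m ih =>
    have h1 := lt_two_pow_sz b
    have h2 : 2 ^ sz b ≤ 2 ^ (sz b + sz m) := Nat.pow_le_pow_right (by omega) (by omega)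
    have h3 : 2 ^ sz m ≤ 2 ^ (sz b + sz m) := Nat.pow_le_pow_right (by omega) (by omega)
    rw [List.sum_cons, sz_cons, pow_succ]; omega

theorem prod_lt_two_pow (l : List ℕ) : l.prod < 2 ^ sz l := by
  induction l with
  | nil => simp
  | cons b m ih =>
    have h1 := lt_two_pow_sz b
    have := Nat.mul_lt_mul'' h1 ih
    rw [List.prod_cons, sz_cons, pow_succ, pow_add]; omega

@[fun_prop] theorem nat_sum {l : α → List ℕ} (hl : PT l) : PT fun a => (l a).sum :=
  (foldr_of_suffix (f := fun _ b c => b + c) hl (const 0) (by fun_prop)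
    (B := fun a => 4 * sz (l a) + 1) (by fun_prop) fun a s hs => by
      have h1 := sz_nat_le_of_lt (sum_lt_two_pow s)
      have h2 := sz_sublist hs.sublist
      rw [← List.sum_eq_foldr]; omega).of_eq fun _ => List.sum_eq_foldr.symm

@[fun_prop] theorem nat_prod {l : α → List ℕ} (hl : PT l) : PT fun a => (l a).prod :=
  (foldr_of_suffix (f := fun _ b c => b * c) hl (const 1) (by fun_prop)
    (B := fun a => 4 * sz (l a) + 1) (by fun_prop) fun a s hs => by
      have h1 := sz_nat_le_of_lt (prod_lt_two_pow s)
      have h2 := sz_sublist hs.sublist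
      rw [← List.prod_eq_foldr]; omega).of_eq fun _ => List.prod_eq_foldr.symm

@[fun_prop] theorem factorial {n : α → ℕ} (hn : PT n) (hb : PB n) :
    PT fun a => (n a).factorial :=
  (map (f := fun _ i => i + 1) (hn.range hb) (by fun_prop)).nat_prod.of_eq fun a => by
    rw [← Finset.prod_range_add_one_eq_factorial]; rfl

@[fun_prop] theorem descFactorial {n k : α → ℕ} (hn : PT n) (hk : PT k) (hb : PB k) :
    PT fun a => (n a).descFactorial (k a) :=
  (map (f := fun a i => n a - i) (hk.range hb) (by fun_prop)).nat_prod.of_eq fun a => by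
    rw [Nat.descFactorial_eq_prod_range]; rfl

@[fun_prop] theorem choose {n k : α → ℕ} (hn : PT n) (hk : PT k) (hb : PB k) :
    PT fun a => (n a).choose (k a) :=
  ((hn.descFactorial hk hb).nat_div (hk.factorial hb)).of_eq fun _ =>
    (Nat.choose_eq_descFactorial_div_factorial _ _).symm

@[fun_prop] theorem testBit {n i : α → ℕ} (hn : PT n) (hi : PT i) :
    PT fun a => (n a).testBit (i a) :=
  (hn.bits.getI hi).of_eq fun _ => (Nat.testBit_eq_inth _ _).symm

@[fun_prop] theorem nat_shiftRight {n m : α → ℕ} (hn : PT n) (hm : PT m) :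
    PT fun a => n a >>> m a := by
  refine (hn.nat_div ((const 2).nat_pow (hm.nat_min hn.nat_size)
    (PB.min_right _ (PB.size hn)))).of_eq fun a => ?_
  rw [Nat.shiftRight_eq_div_pow]
  rcases le_total (m a) (n a).size with h | h
  · rw [min_eq_left h]
  · rw [min_eq_right h, Nat.div_eq_of_lt (Nat.lt_size_self _),
      Nat.div_eq_of_lt (Nat.size_le.1 h)]





/-- `map` over a range; the function need only be fast on indices in the range. -/
theorem map_range {n : α → ℕ} {f : α → ℕ → β} (hn : PT n) (hb : PB n)
    (hf : PT fun p : {p : α × ℕ // p.2 < n p.1} => f p.1.1 p.1.2) :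
    PT fun a => (List.range (n a)).map (f a) :=
  map_mem (hn.range hb) (hf.sub_mono fun _ h => List.mem_range.1 h)

/-- On pairs with an index in a polynomially bounded range, the index is polynomially bounded. -/
theorem _root_.Crest.Agent.Lib.PT.PB.idx {n : α → ℕ} (hb : PB n) :
    PB fun p : {p : α × ℕ // p.2 < n p.1} => p.1.2 :=
  (hb.comp (f := fun p : {p : α × ℕ // p.2 < n p.1} => p.1.1) (by fun_prop)).mono
    fun p => p.2.le

@[fun_prop] theorem nat_log {b n : α → ℕ} (hb : PT b) (hn : PT n) :
    PT fun a => Nat.log (b a) (n a) := by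
  classical
  have h1 : PT fun a => (List.range (n a).size).countP fun i =>
      Decidable.decide (b a ^ (min i (n a).size + 1) ≤ n a) := by
    refine countP (by fun_prop) (decide' (nat_le (nat_pow (by fun_prop) (by fun_prop) ?_)
      (by fun_prop)))
    exact (PB.min_right _ (by fun_prop)).add (PB.const 1)
  refine (ite (p := fun a => b a ≤ 1) (by fun_prop) (const 0) h1).of_eq fun a => ?_
  split_ifs with h
  · rw [Nat.log_of_left_le_one h]
  · rcases Nat.eq_zero_or_pos (n a) with h0 | h0
    · simp [h0]
    · have h2 : Nat.log (b a) (n a) < (n a).size :=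
        (Nat.log_anti_left (c := 2) (by omega) (by omega)).trans_lt
          (Nat.lt_size.2 (Nat.pow_log_le_self 2 h0.ne'))
      rw [List.countP_congr (q := fun i => Decidable.decide (i < Nat.log (b a) (n a)))]
      · rw [List.countP_eq_length_filter, ← List.toFinset_card_of_nodup
          (List.nodup_range.filter _)]
        rw [← Finset.card_range (Nat.log (b a) (n a))]
        congr 1; ext i; simp; omega
      · intro i hi
        rw [min_eq_left (List.mem_range.1 hi).le]
        simp only [decide_eq_true_eq]
        rw [Nat.succ_le_iff.symm, Nat.le_log_iff_pow_le (by omega) h0.ne']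

end PT

end Crest.Agent.Lib.PT
end

-- ▼ part PVb/Lib/PT/Int
section

/-!
# Polynomial time: integers and rationals
-/

set_option linter.dupNamespace false

namespace Crest.Agent.Lib.PT

universe u v w x y

variable {α : Type u} {β : Type v} {γ : Type w} [Enc α] [Enc β] [Enc γ]

theorem sz_int_le (z : ℤ) : sz z ≤ sz z.natAbs + 4 := by
  have := sz_bool_le (decide (z < 0))
  rw [sz_int]; omega

theorem sz_natAbs_le (z : ℤ) : sz z.natAbs ≤ sz z := by rw [sz_int]; omega

theorem natAbs_lt_two_pow_sz (z : ℤ) : z.natAbs < 2 ^ sz z :=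
  (lt_two_pow_sz _).trans_le (Nat.pow_le_pow_right (by omega) (sz_natAbs_le z))

/-- An integer of absolute value below `2 ^ k` has a code of size at most `4 * k + 5`. -/
theorem sz_int_le_of_lt {z : ℤ} {k : ℕ} (h : z.natAbs < 2 ^ k) : sz z ≤ 4 * k + 5 := by
  have := sz_int_le z
  have := sz_nat_le_of_lt h
  omega

theorem sz_int_le_of_le {z : ℤ} {n : ℕ} (h : z.natAbs ≤ n) : sz z ≤ 2 * sz n + 4 := by
  have := sz_int_le z
  have := sz_nat_le_of_le h
  omega

/-- Height of a rational number. -/
def ratH (q : ℚ) : ℕ := q.num.natAbs + q.den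


theorem ratH_lt_two_pow_sz (q : ℚ) : ratH q < 2 ^ sz q := by
  have h1 := natAbs_lt_two_pow_sz q.num
  have h2 := lt_two_pow_sz q.den
  have h3 : 2 ^ sz q.num ≤ 2 ^ (sz q.num + sz q.den) := Nat.pow_le_pow_right (by omega) (by omega)
  have h4 : 2 ^ sz q.den ≤ 2 ^ (sz q.num + sz q.den) := Nat.pow_le_pow_right (by omega) (by omega)
  rw [sz_rat, pow_succ, ratH]; omega

/-- A rational of height below `2 ^ k` has a code of size at most `8 * k + 7`. -/
theorem sz_rat_le_of_lt {q : ℚ} {k : ℕ} (h : ratH q < 2 ^ k) : sz q ≤ 8 * k + 7 := by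
  unfold ratH at h
  have := sz_int_le_of_lt (z := q.num) (k := k) (by omega)
  have := sz_nat_le_of_lt (n := q.den) (k := k) (by omega)
  rw [sz_rat]; omega

theorem ratH_mkRat_le (n : ℤ) {d : ℕ} (hd : d ≠ 0) : ratH (mkRat n d) ≤ n.natAbs + d := by
  unfold ratH
  rw [Rat.num_mkRat, Rat.den_mkRat, if_neg hd, if_neg hd]
  exact Nat.add_le_add (Int.natAbs_ediv_le_natAbs _ _) (Nat.div_le_self _ _)

theorem ratH_add_le (q r : ℚ) : ratH (q + r) ≤ ratH q * ratH r := by
  rw [Rat.add_def']
  refine (ratH_mkRat_le _ (Nat.mul_ne_zero q.den_nz r.den_nz)).trans ?_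
  have := Int.natAbs_add_le (q.num * r.den) (r.num * q.den)
  simp only [Int.natAbs_mul, Int.natAbs_natCast] at this
  unfold ratH
  nlinarith [Nat.zero_le (q.num.natAbs * r.num.natAbs)]

theorem ratH_mul_le (q r : ℚ) : ratH (q * r) ≤ ratH q * ratH r := by
  rw [Rat.mul_def']
  refine (ratH_mkRat_le _ (Nat.mul_ne_zero q.den_nz r.den_nz)).trans ?_
  simp only [Int.natAbs_mul]
  unfold ratH
  nlinarith [Nat.zero_le (q.num.natAbs * r.den), Nat.zero_le (q.den * r.num.natAbs)]

@[simp] theorem ratH_neg (q : ℚ) : ratH (-q) = ratH q := by simp [ratH]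

theorem ratH_inv_le (q : ℚ) : ratH q⁻¹ ≤ ratH q := by
  rcases eq_or_ne q 0 with rfl | h
  · simp
  · have h' : q.num ≠ 0 := Rat.num_ne_zero.2 h
    unfold ratH
    rw [Rat.num_inv, Rat.den_inv, if_neg h', Int.natAbs_mul, Int.natAbs_sign_of_ne_zero h']
    simp; omega



@[simp] theorem ratH_zero : ratH 0 = 1 := rfl
@[simp] theorem ratH_one : ratH 1 = 2 := rfl
@[simp] theorem ratH_intCast (z : ℤ) : ratH z = z.natAbs + 1 := by simp [ratH]
@[simp] theorem ratH_natCast (n : ℕ) : ratH n = n + 1 := by simp [ratH]

theorem ratH_sum_le (l : List ℚ) : ratH l.sum ≤ (l.map ratH).prod := by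
  induction l with
  | nil => simp
  | cons b m ih => simpa using (ratH_add_le _ _).trans (Nat.mul_le_mul_left _ ih)

theorem ratH_prod_le (l : List ℚ) : ratH l.prod ≤ 2 * (l.map ratH).prod := by
  induction l with
  | nil => simp
  | cons b m ih =>
    have := (ratH_mul_le b m.prod).trans (Nat.mul_le_mul_left _ ih)
    simpa [mul_left_comm] using this

theorem prod_ratH_lt (l : List ℚ) : (l.map ratH).prod < 2 ^ sz l := by
  induction l with
  | nil => simp
  | cons b m ih =>
    have := Nat.mul_lt_mul'' (ratH_lt_two_pow_sz b) ih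
    rw [List.map_cons, List.prod_cons, sz_cons, pow_succ, pow_add]; omega

namespace PT

@[fun_prop] theorem natAbs {z : α → ℤ} (hz : PT z) : PT fun a => (z a).natAbs :=
  hz.enc.right.of_enc_eq fun _ => rfl

theorem int_neg_test {z : α → ℤ} (hz : PT z) : PT fun a => z a < 0 :=
  of_decide (hz.enc.left.of_enc_eq fun _ => rfl)

@[fun_prop] theorem int_natCast {n : α → ℕ} (hn : PT n) : PT fun a => (n a : ℤ) :=
  ((const false).pair hn).of_enc_eq fun a => by
    rw [enc_int, decide_eq_false (by omega), Int.natAbs_natCast]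

@[fun_prop] theorem int_ofNat {n : α → ℕ} (hn : PT n) : PT fun a => Int.ofNat (n a) :=
  hn.int_natCast

@[fun_prop] theorem int_neg {z : α → ℤ} (hz : PT z) : PT fun a => - z a :=
  ((hz.int_neg_test.not.and (hz.eq (const 0)).not).decide.pair hz.natAbs).of_enc_eq fun a => by
    rw [enc_int, Int.natAbs_neg]
    congr 2
    rw [decide_eq_decide]; omega

@[fun_prop] theorem negSucc {n : α → ℕ} (hn : PT n) : PT fun a => Int.negSucc (n a) :=
  (hn.nat_add (const 1)).int_natCast.int_neg

@[fun_prop] theorem int_toNat {z : α → ℤ} (hz : PT z) : PT fun a => (z a).toNat :=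
  (ite hz.int_neg_test (const 0) hz.natAbs).of_eq fun a => by split_ifs <;> omega

@[fun_prop] theorem int_add {z w : α → ℤ} (hz : PT z) (hw : PT w) : PT fun a => z a + w a :=
  PT.of_eq (g := fun a => if (-z a).toNat + (-w a).toNat ≤ (z a).toNat + (w a).toNat then
    (((z a).toNat + (w a).toNat - ((-z a).toNat + (-w a).toNat) : ℕ) : ℤ) else
    - (((-z a).toNat + (-w a).toNat - ((z a).toNat + (w a).toNat) : ℕ) : ℤ)) (by fun_prop)
    fun a => by split_ifs <;> omega

@[fun_prop] theorem int_sub {z w : α → ℤ} (hz : PT z) (hw : PT w) : PT fun a => z a - w a :=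
  (hz.int_add hw.int_neg).of_eq fun _ => (sub_eq_add_neg _ _).symm

@[fun_prop] theorem int_lt {z w : α → ℤ} (hz : PT z) (hw : PT w) : PT fun a => z a < w a :=
  (hz.int_sub hw).int_neg_test.of_iff fun _ => sub_neg

@[fun_prop] theorem int_le {z w : α → ℤ} (hz : PT z) (hw : PT w) : PT fun a => z a ≤ w a :=
  (hw.int_lt hz).not.of_iff fun _ => not_lt

@[fun_prop] theorem int_gt {z w : α → ℤ} (hz : PT z) (hw : PT w) : PT fun a => z a > w a :=
  hw.int_lt hz

@[fun_prop] theorem int_ge {z w : α → ℤ} (hz : PT z) (hw : PT w) : PT fun a => z a ≥ w a :=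
  hw.int_le hz

@[fun_prop] theorem int_max {z w : α → ℤ} (hz : PT z) (hw : PT w) :
    PT fun a => max (z a) (w a) := (ite (hz.int_le hw) hw hz).of_eq fun _ => (max_def _ _).symm

@[fun_prop] theorem int_min {z w : α → ℤ} (hz : PT z) (hw : PT w) :
    PT fun a => min (z a) (w a) := (ite (hz.int_le hw) hz hw).of_eq fun _ => (min_def _ _).symm

@[fun_prop] theorem int_abs {z : α → ℤ} (hz : PT z) : PT fun a => |z a| :=
  hz.natAbs.int_natCast.of_eq fun _ => Int.natCast_natAbs _

@[fun_prop] theorem int_sign {z : α → ℤ} (hz : PT z) : PT fun a => (z a).sign :=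
  PT.of_eq (g := fun a => if z a < 0 then -1 else if z a = 0 then 0 else 1) (by fun_prop)
    fun a => by
      split_ifs with h1 h2
      · rw [Int.sign_eq_neg_one_of_neg h1]
      · rw [h2]; rfl
      · rw [Int.sign_eq_one_of_pos (by omega)]

@[fun_prop] theorem int_mul {z w : α → ℤ} (hz : PT z) (hw : PT w) : PT fun a => z a * w a :=
  PT.of_eq (g := fun a => if (z a < 0 ↔ w a < 0) then (((z a).natAbs * (w a).natAbs : ℕ) : ℤ)
    else - (((z a).natAbs * (w a).natAbs : ℕ) : ℤ)) (by fun_prop) fun a => by
      simp only [Nat.cast_mul, Int.natCast_natAbs]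
      rcases lt_or_ge (z a) 0 with h1 | h1 <;> rcases lt_or_ge (w a) 0 with h2 | h2
      · rw [if_pos (by omega), abs_of_neg h1, abs_of_neg h2]; ring
      · rw [if_neg (by omega), abs_of_neg h1, abs_of_nonneg h2]; ring
      · rw [if_neg (by omega), abs_of_nonneg h1, abs_of_neg h2]; ring
      · rw [if_pos (by omega), abs_of_nonneg h1, abs_of_nonneg h2]

@[fun_prop] theorem int_ediv {z w : α → ℤ} (hz : PT z) (hw : PT w) : PT fun a => z a / w a :=
  PT.of_eq (g := fun a => if 0 ≤ z a then (w a).sign * ((z a).natAbs / (w a).natAbs : ℕ)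
    else - (w a).sign * (((z a).natAbs - 1) / (w a).natAbs + 1 : ℕ)) (by fun_prop) fun a => by
      generalize z a = x
      generalize w a = y
      rcases x with m | m <;> rcases y with (_ | n) | n
      · simp
      · rw [if_pos (by simp)]; exact one_mul _
      · rw [if_pos (by simp)]; exact neg_one_mul _
      · simp
      · rw [if_neg (by simp)]; exact neg_one_mul _
      · rw [if_neg (by simp)]; exact one_mul _

@[fun_prop] theorem int_emod {z w : α → ℤ} (hz : PT z) (hw : PT w) : PT fun a => z a % w a :=
  (hz.int_sub (hw.int_mul (hz.int_ediv hw))).of_eq fun _ => (Int.emod_def _ _).symm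

@[fun_prop] theorem int_dvd {z w : α → ℤ} (hz : PT z) (hw : PT w) : PT fun a => z a ∣ w a :=
  (hz.natAbs.nat_dvd hw.natAbs).of_iff fun _ => Int.natAbs_dvd_natAbs

@[fun_prop] theorem int_gcd {z w : α → ℤ} (hz : PT z) (hw : PT w) :
    PT fun a => Int.gcd (z a) (w a) := hz.natAbs.nat_gcd hw.natAbs

@[fun_prop] theorem int_even {z : α → ℤ} (hz : PT z) : PT fun a => Even (z a) :=
  hz.natAbs.nat_even.of_iff fun _ => Int.natAbs_even

@[fun_prop] theorem int_odd {z : α → ℤ} (hz : PT z) : PT fun a => Odd (z a) :=
  hz.natAbs.nat_odd.of_iff fun _ => Int.natAbs_odd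

@[fun_prop] theorem int_pow {z : α → ℤ} {n : α → ℕ} (hz : PT z) (hn : PT n) (hb : PB n) :
    PT fun a => z a ^ n a :=
  PT.of_eq (g := fun a => if z a < 0 ∧ Odd (n a) then - (((z a).natAbs ^ n a : ℕ) : ℤ)
    else (((z a).natAbs ^ n a : ℕ) : ℤ)) (by fun_prop) fun a => by
      simp only [Nat.cast_pow, Int.natCast_natAbs]
      split_ifs with h
      · rw [abs_of_neg h.1, h.2.neg_pow, neg_neg]
      · rcases lt_or_ge (z a) 0 with h1 | h1
        · rw [abs_of_neg h1, (Nat.not_odd_iff_even.1 fun h2 => h ⟨h1, h2⟩).neg_pow]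
        · rw [abs_of_nonneg h1]

theorem natAbs_sum_lt (l : List ℤ) : l.sum.natAbs < 2 ^ sz l := by
  induction l with
  | nil => simp
  | cons b m ih =>
    have h0 := Int.natAbs_add_le b m.sum
    have h1 := natAbs_lt_two_pow_sz b
    have h2 : 2 ^ sz b ≤ 2 ^ (sz b + sz m) := Nat.pow_le_pow_right (by omega) (by omega)
    have h3 : 2 ^ sz m ≤ 2 ^ (sz b + sz m) := Nat.pow_le_pow_right (by omega) (by omega)
    rw [List.sum_cons, sz_cons, pow_succ]; omega

theorem natAbs_prod_lt (l : List ℤ) : l.prod.natAbs < 2 ^ sz l := by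
  induction l with
  | nil => simp
  | cons b m ih =>
    have := Nat.mul_lt_mul'' (natAbs_lt_two_pow_sz b) ih
    rw [List.prod_cons, sz_cons, pow_succ, pow_add, Int.natAbs_mul]; omega

@[fun_prop] theorem int_sum {l : α → List ℤ} (hl : PT l) : PT fun a => (l a).sum :=
  (foldr_of_suffix (f := fun _ b c => b + c) hl (const 0) (by fun_prop)
    (B := fun a => 4 * sz (l a) + 5) (by fun_prop) fun a s hs => by
      have h1 := sz_int_le_of_lt (natAbs_sum_lt s)
      have h2 := sz_sublist hs.sublist
      rw [← List.sum_eq_foldr]; omega).of_eq fun _ => List.sum_eq_foldr.symm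

@[fun_prop] theorem int_prod {l : α → List ℤ} (hl : PT l) : PT fun a => (l a).prod :=
  (foldr_of_suffix (f := fun _ b c => b * c) hl (const 1) (by fun_prop)
    (B := fun a => 4 * sz (l a) + 5) (by fun_prop) fun a s hs => by
      have h1 := sz_int_le_of_lt (natAbs_prod_lt s)
      have h2 := sz_sublist hs.sublist
      rw [← List.prod_eq_foldr]; omega).of_eq fun _ => List.prod_eq_foldr.symm

/-! ### Rationals -/

@[fun_prop] theorem rat_num {q : α → ℚ} (hq : PT q) : PT fun a => (q a).num :=
  hq.enc.left.of_enc_eq fun _ => rfl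

@[fun_prop] theorem rat_den {q : α → ℚ} (hq : PT q) : PT fun a => (q a).den :=
  hq.enc.right.of_enc_eq fun _ => rfl

@[fun_prop] theorem mkRat {z : α → ℤ} {d : α → ℕ} (hz : PT z) (hd : PT d) :
    PT fun a => mkRat (z a) (d a) :=
  PT.of_enc_eq (g := fun a =>
    ((if d a = 0 then 0 else z a / ((d a).gcd (z a).natAbs : ℕ) : ℤ),
      if d a = 0 then 1 else d a / (d a).gcd (z a).natAbs)) (by fun_prop) fun a => by
    rw [enc_rat, Rat.num_mkRat, Rat.den_mkRat]

@[fun_prop] theorem rat_intCast {z : α → ℤ} (hz : PT z) : PT fun a => (z a : ℚ) :=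
  (hz.pair (const 1)).of_enc_eq fun _ => rfl

@[fun_prop] theorem rat_natCast {n : α → ℕ} (hn : PT n) : PT fun a => (n a : ℚ) :=
  hn.int_natCast.rat_intCast

@[fun_prop] theorem rat_add {q r : α → ℚ} (hq : PT q) (hr : PT r) : PT fun a => q a + r a := by
  simp only [Rat.add_def']; fun_prop

@[fun_prop] theorem rat_mul {q r : α → ℚ} (hq : PT q) (hr : PT r) : PT fun a => q a * r a := by
  simp only [Rat.mul_def']; fun_prop

@[fun_prop] theorem rat_neg {q : α → ℚ} (hq : PT q) : PT fun a => - q a :=
  (hq.rat_num.int_neg.pair hq.rat_den).of_enc_eq fun _ => rfl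

@[fun_prop] theorem rat_sub {q r : α → ℚ} (hq : PT q) (hr : PT r) : PT fun a => q a - r a :=
  (hq.rat_add hr.rat_neg).of_eq fun _ => (sub_eq_add_neg _ _).symm

@[fun_prop] theorem rat_inv {q : α → ℚ} (hq : PT q) : PT fun a => (q a)⁻¹ :=
  PT.of_enc_eq (g := fun a => (((q a).num.sign * (q a).den : ℤ),
    if (q a).num = 0 then 1 else (q a).num.natAbs)) (by fun_prop) fun a => by
    rw [enc_rat, Rat.num_inv, Rat.den_inv]

@[fun_prop] theorem rat_div {q r : α → ℚ} (hq : PT q) (hr : PT r) : PT fun a => q a / r a :=
  (hq.rat_mul hr.rat_inv).of_eq fun _ => (div_eq_mul_inv _ _).symm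

@[fun_prop] theorem divInt {z w : α → ℤ} (hz : PT z) (hw : PT w) :
    PT fun a => Rat.divInt (z a) (w a) :=
  (hz.rat_intCast.rat_div hw.rat_intCast).of_eq fun _ => (Rat.divInt_eq_div _ _).symm

@[fun_prop] theorem rat_le {q r : α → ℚ} (hq : PT q) (hr : PT r) : PT fun a => q a ≤ r a := by
  simp only [Rat.le_iff]; fun_prop

@[fun_prop] theorem rat_lt {q r : α → ℚ} (hq : PT q) (hr : PT r) : PT fun a => q a < r a :=
  (hr.rat_le hq).not.of_iff fun _ => not_le

@[fun_prop] theorem rat_gt {q r : α → ℚ} (hq : PT q) (hr : PT r) : PT fun a => q a > r a :=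
  hr.rat_lt hq

@[fun_prop] theorem rat_ge {q r : α → ℚ} (hq : PT q) (hr : PT r) : PT fun a => q a ≥ r a :=
  hr.rat_le hq

@[fun_prop] theorem rat_max {q r : α → ℚ} (hq : PT q) (hr : PT r) :
    PT fun a => max (q a) (r a) := (ite (hq.rat_le hr) hr hq).of_eq fun _ => (max_def _ _).symm

@[fun_prop] theorem rat_min {q r : α → ℚ} (hq : PT q) (hr : PT r) :
    PT fun a => min (q a) (r a) := (ite (hq.rat_le hr) hq hr).of_eq fun _ => (min_def _ _).symm

@[fun_prop] theorem rat_abs {q : α → ℚ} (hq : PT q) : PT fun a => |q a| :=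
  hq.rat_max hq.rat_neg

@[fun_prop] theorem rat_pow {q : α → ℚ} {n : α → ℕ} (hq : PT q) (hn : PT n) (hb : PB n) :
    PT fun a => q a ^ n a :=
  ((hq.rat_num.int_pow hn hb).pair (hq.rat_den.nat_pow hn hb)).of_enc_eq fun a => by
    rw [enc_rat, Rat.num_pow, Rat.den_pow]

@[fun_prop] theorem rat_floor {q : α → ℚ} (hq : PT q) : PT fun a => ⌊q a⌋ := by
  simp only [Rat.floor_def']; fun_prop

@[fun_prop] theorem rat_ceil {q : α → ℚ} (hq : PT q) : PT fun a => ⌈q a⌉ := by
  simp only [Rat.ceil_def']; fun_prop

@[fun_prop] theorem rat_natFloor {q : α → ℚ} (hq : PT q) : PT fun a => ⌊q a⌋₊ :=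
  hq.rat_floor.int_toNat

@[fun_prop] theorem rat_natCeil {q : α → ℚ} (hq : PT q) : PT fun a => ⌈q a⌉₊ :=
  hq.rat_ceil.int_toNat

@[fun_prop] theorem rat_round {q : α → ℚ} (hq : PT q) : PT fun a => round (q a) := by
  simp only [round_eq]; fun_prop

@[fun_prop] theorem rat_fract {q : α → ℚ} (hq : PT q) : PT fun a => Int.fract (q a) :=
  hq.rat_sub hq.rat_floor.rat_intCast

@[fun_prop] theorem rat_sum {l : α → List ℚ} (hl : PT l) : PT fun a => (l a).sum :=
  (foldr_of_suffix (f := fun _ b c => b + c) hl (const 0) (by fun_prop)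
    (B := fun a => 8 * sz (l a) + 7) (by fun_prop) fun a s hs => by
      have h1 := sz_rat_le_of_lt ((ratH_sum_le s).trans_lt (prod_ratH_lt s))
      have h2 := sz_sublist hs.sublist
      rw [← List.sum_eq_foldr]; omega).of_eq fun _ => List.sum_eq_foldr.symm

@[fun_prop] theorem rat_prod {l : α → List ℚ} (hl : PT l) : PT fun a => (l a).prod :=
  (foldr_of_suffix (f := fun _ b c => b * c) hl (const 1) (by fun_prop)
    (B := fun a => 8 * (sz (l a) + 1) + 7) (by fun_prop) fun a s hs => by
      have h0 := prod_ratH_lt s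
      have h1 := sz_rat_le_of_lt (k := sz s + 1) ((ratH_prod_le s).trans_lt
        (by rw [pow_succ]; omega))
      have h2 := sz_sublist hs.sublist
      rw [← List.prod_eq_foldr]; omega).of_eq fun _ => List.prod_eq_foldr.symm

end PT

end Crest.Agent.Lib.PT
end

-- ▼ part PVb/Lib/PT/Rec
section

/-!
# Polynomial time: linear recursion, finite sums over ranges, finite sets as lists
-/

set_option linter.dupNamespace false

namespace Crest.Agent.Lib.PT

universe u v w x y

variable {α : Type u} {β : Type v} {γ : Type w} {δ : Type x} [Enc α] [Enc β] [Enc γ] [Enc δ]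

namespace PT

/-- Linear recursion `F s = if cont s then step s (F (next s)) else base s`, with a decreasing
measure `μ` and a non-increasing bound `ν` on the size of the argument. -/
theorem linrec {σ : Type u} [Enc σ] {cont : σ → Prop} {next : σ → σ} {base : σ → γ}
    {step : σ → γ → γ} {F : σ → γ} (hc : PT cont)
    (hn : PT fun s : {s // cont s} => next s.1) (hb : PT fun s : {s // ¬ cont s} => base s.1)
    (hs : PT fun p : {p : σ × γ // cont p.1 ∧ p.2 = F (next p.1)} => step p.1.1 p.1.2)
    (e₁ : ∀ s, ¬ cont s → F s = base s) (e₂ : ∀ s, cont s → F s = step s (F (next s)))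
    {μ ν : σ → ℕ} (hμ : PB μ) (hν : PB ν) (dec : ∀ s, cont s → μ (next s) < μ s)
    (mono : ∀ s, cont s → ν (next s) ≤ ν s) (hsz : ∀ s, sz s ≤ ν s)
    (hF : PB fun s => sz (F s)) : PT F := by
  have key : ∀ (M N k : ℕ) (s : σ) (acc : List σ), μ s ≤ k → ν s ≤ N →
      sz acc + k * (N + 1) ≤ M → ∃ t l, Loop (fun q : σ × List σ => cont q.1)
        (fun q => (next q.1, q.1 :: q.2)) (N + M + 1) (s, acc) (t, l ++ acc) k ∧ ¬ cont t ∧
        l.foldl (fun c s => step s c) (base t) = F s ∧
        (∀ pre, pre <+: l → ∃ s', sz s' ≤ N ∧ pre.foldl (fun c s => step s c) (base t) = F s') ∧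
        ∀ pre x rest, l = pre ++ x :: rest → cont x ∧
          pre.foldl (fun c s => step s c) (base t) = F (next x) := by
    intro M N k
    induction k with
    | zero =>
      intro s acc h1 h2 h3
      have hc : ¬ cont s := fun h => by have := dec s h; omega
      have := hsz s
      refine ⟨s, [], Loop.stop hc (by simp; omega), hc, (e₁ s hc).symm, fun pre h => ?_,
        fun pre x rest h => by simp at h⟩
      rw [List.prefix_nil.1 h]
      exact ⟨s, by omega, (e₁ s hc).symm⟩
    | succ k ih =>
      intro s acc h1 h2 h3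
      have := hsz s
      by_cases hc : cont s
      · have g1 := dec s hc
        have g2 := mono s hc
        rw [Nat.succ_mul] at h3
        obtain ⟨t, l, a1, a2, a3, a4, a5⟩ := ih (next s) (s :: acc) (by omega) (by omega)
          (by simp; omega)
        have a6 : (l ++ [s]).foldl (fun c s => step s c) (base t) = F s := by
          rw [List.foldl_append, a3]; exact (e₂ s hc).symm
        refine ⟨t, l ++ [s], Loop.step hc (by simp; omega) (by simpa using a1), a2, a6,
          fun pre h => ?_, fun pre x rest h => ?_⟩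
        · rcases List.prefix_concat_iff.1 h with rfl | h
          · exact ⟨s, by omega, a6⟩
          · exact a4 pre h
        · rcases List.eq_nil_or_concat rest with rfl | ⟨rest', y, rfl⟩
          · obtain ⟨rfl, h2⟩ := List.append_inj' h rfl
            obtain rfl : s = x := by simpa using h2
            exact ⟨hc, a3⟩
          · rw [List.concat_eq_append, ← List.cons_append, ← List.append_assoc] at h
            exact a5 pre x rest' (List.append_inj' h rfl).1
      · refine ⟨s, [], Loop.stop hc (by simp; omega), hc, (e₁ s hc).symm, fun pre h => ?_,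
          fun pre x rest h => by simp at h⟩
        rw [List.prefix_nil.1 h]
        exact ⟨s, by omega, (e₁ s hc).symm⟩
  choose t l a1 a2 a3 a4 a5 using fun s =>
    key (1 + μ s * (ν s + 1)) (ν s) (μ s) s [] le_rfl le_rfl (by simp)
  have h1 := loop (cont := fun q : σ × List σ => cont q.1) (next := fun q => (next q.1, q.1 :: q.2))
    (hc.comp id.fst) (pair (hn.comp_sub (fun q => q.1.1) (by fun_prop) fun q => q.2) (by fun_prop))
    (s₀ := fun s => (s, [])) (by fun_prop) hμ (by fun_prop) a1
  obtain ⟨c, k, hF⟩ := hF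
  refine (foldl_gen (f := fun _ c s => step s c) (l := l) (init := fun s => base (t s))
    (h1.snd.of_eq fun s => by simp) (hb.comp_sub t h1.fst a2)
    (hs.comp_sub (fun p => (p.1.2.2, p.1.2.1)) (by fun_prop) fun p => ?_)
    (B := fun s => c * ν s ^ k) (by fun_prop) fun s pre h => ?_).of_eq a3
  · obtain ⟨pre, rest, g1, g2⟩ := p.2
    have := a5 _ _ _ _ g1
    exact ⟨this.1, g2.trans this.2⟩
  · obtain ⟨s', g1, g2⟩ := a4 s pre h
    rw [g2]
    exact (hF s').trans (Nat.mul_le_mul_left _ (Nat.pow_le_pow_left g1 _))

/-- Linear recursion on an argument whose size does not increase. -/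
theorem linrec' {σ : Type u} [Enc σ] {cont : σ → Prop} {next : σ → σ} {base : σ → γ}
    {step : σ → γ → γ} {F : σ → γ} (hc : PT cont) (hn : PT next) (hb : PT base)
    (hs : PT fun p : σ × γ => step p.1 p.2)
    (e₁ : ∀ s, ¬ cont s → F s = base s) (e₂ : ∀ s, cont s → F s = step s (F (next s)))
    {μ : σ → ℕ} (hμ : PB μ) (dec : ∀ s, cont s → μ (next s) < μ s)
    (mono : ∀ s, cont s → sz (next s) ≤ sz s) (hF : PB fun s => sz (F s)) : PT F :=
  linrec hc (hn.restrict _) (hb.restrict _) (hs.restrict _) e₁ e₂ hμ PB.sz_self dec mono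
    (fun _ => le_rfl) hF


/-- Primitive recursion on a polynomially bounded number, given a bound on all values. -/
theorem nat_rec {n : α → ℕ} {z : α → γ} {f : α → ℕ → γ → γ} {F : α → ℕ → γ}
    (hn : PT n) (hb : PB n) (hz : PT z) (hf : PT fun p : α × ℕ × γ => f p.1 p.2.1 p.2.2)
    (e₁ : ∀ a, F a 0 = z a) (e₂ : ∀ a k, k < n a → F a (k + 1) = f a k (F a k))
    {B : α → ℕ} (hB : PB B) (hsz : ∀ a k, k ≤ n a → sz (F a k) ≤ B a) :
    PT fun a => F a (n a) := by
  have key : ∀ a k, k ≤ n a →
      (fun c : ℕ × γ => (c.1 + 1, f a c.1 c.2))^[k] (0, z a) = (k, F a k) := by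
    intro a k
    induction k with
    | zero => intro _; rw [e₁]; rfl
    | succ k ih => intro h; rw [Function.iterate_succ_apply', ih (by omega), e₂ a k h]
  refine (iterate (f := fun a (c : ℕ × γ) => (c.1 + 1, f a c.1 c.2)) (s := fun a => (0, z a))
    hn hb (by fun_prop) (pair (by fun_prop) hf) (B := fun a => 4 * n a + B a + 2) (by fun_prop)
    fun a k hk => ?_).snd.of_eq fun a => by rw [key a _ le_rfl]
  have := hsz a k hk
  have := sz_nat_le_self k
  rw [key a k hk, sz_mk]; omega


/-! ### Finite sums and products over ranges -/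

@[fun_prop] theorem sum_range [AddCommMonoid β] {n : α → ℕ} {f : α → ℕ → β}
    (hs : PT fun l : List β => l.sum) (hn : PT n) (hb : PB n)
    (hf : PT fun p : α × ℕ => f p.1 p.2) : PT fun a => ∑ i ∈ Finset.range (n a), f a i :=
  hs.comp (map (hn.range hb) hf)

@[fun_prop] theorem prod_range [CommMonoid β] {n : α → ℕ} {f : α → ℕ → β}
    (hs : PT fun l : List β => l.prod) (hn : PT n) (hb : PB n)
    (hf : PT fun p : α × ℕ => f p.1 p.2) : PT fun a => ∏ i ∈ Finset.range (n a), f a i :=
  hs.comp (map (hn.range hb) hf)



/-- A list given by a function on `Fin (n a)` that extends to all numbers. -/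
theorem ofFn {n : α → ℕ} {f : ∀ a, Fin (n a) → β} (g : α → ℕ → β) (hn : PT n) (hb : PB n)
    (hg : PT fun p : {p : α × ℕ // p.2 < n p.1} => g p.1.1 p.1.2)
    (e : ∀ a i, f a i = g a i) : PT fun a => List.ofFn (f a) :=
  (map_range hn hb hg).of_eq fun a => by
    apply List.ext_getElem <;> simp [e]


/-- Fold of `max` over a list of numbers. -/
@[fun_prop] theorem nat_foldr_max {l : α → List ℕ} {d : α → ℕ} (hl : PT l) (hd : PT d) :
    PT fun a => (l a).foldr max (d a) :=
  foldr_grow (f := fun _ b c => max b c) hl hd (by fun_prop) (G := fun p => sz p.2)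
    (by fun_prop) fun a b c _ => by rw [max_def]; split_ifs <;> simp



@[fun_prop] theorem argmin [LinearOrder γ] {l : α → List β} {f : α → β → γ} (hl : PT l)
    (hlt : PT fun p : γ × γ => p.1 < p.2) (hf : PT fun p : α × β => f p.1 p.2) :
    PT fun a => (l a).argmin (f a) := by
  unfold List.argmin
  refine foldl_grow hl (const none) ?_ (G := fun p => sz p.2 + 2) (by fun_prop) ?_
  · refine option_cases (o := fun p => p.2.1) (f := fun p => Option.some p.2.2)
      (g := fun p c => if f p.1 p.2.2 < f p.1 c then Option.some p.2.2 else Option.some c)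
      (by fun_prop) (by fun_prop) (ite (hlt.comp_eq (fun p => (f p.1.1 p.1.2.2, f p.1.1 p.2))
        (pair (hf.comp_eq (fun p => (p.1.1, p.1.2.2)) (by fun_prop))
          (hf.comp_eq (fun p => (p.1.1, p.2)) (by fun_prop)))) (by fun_prop) (by fun_prop))
      (fun a h => by rw [h]; rfl) (fun a b h => by rw [h]; rfl)
  · rintro a (_ | c) b _ <;> simp [List.argAux]
    split_ifs <;> simp

@[fun_prop] theorem argmax [LinearOrder γ] {l : α → List β} {f : α → β → γ} (hl : PT l)
    (hlt : PT fun p : γ × γ => p.1 < p.2) (hf : PT fun p : α × β => f p.1 p.2) :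
    PT fun a => (l a).argmax (f a) := by
  unfold List.argmax
  refine foldl_grow hl (const none) ?_ (G := fun p => sz p.2 + 2) (by fun_prop) ?_
  · refine option_cases (o := fun p => p.2.1) (f := fun p => Option.some p.2.2)
      (g := fun p c => if f p.1 c < f p.1 p.2.2 then Option.some p.2.2 else Option.some c)
      (by fun_prop) (by fun_prop) (ite (hlt.comp_eq (fun p => (f p.1.1 p.2, f p.1.1 p.1.2.2))
        (pair (hf.comp_eq (fun p => (p.1.1, p.2)) (by fun_prop))
          (hf.comp_eq (fun p => (p.1.1, p.1.2.2)) (by fun_prop)))) (by fun_prop) (by fun_prop))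
      (fun a h => by rw [h]; rfl) (fun a b h => by rw [h]; rfl)
  · rintro a (_ | c) b _ <;> simp [List.argAux]
    split_ifs <;> simp






end PT

end Crest.Agent.Lib.PT
end

-- ▼ part PVb/Lib/PT/Compile
section

/-!
# From timed computations on trees to `Turing.FinTM2`
-/

set_option linter.dupNamespace false

namespace Crest.Agent.Lib.PT

open Turing

section

variable {G Λ : Type}

/-- Push a list of bits on the main stack, head on top. -/
def pushAll : List Bool → TStmt G Λ → TStmt G Λ
  | [], q => q
  | x :: l, q => pushAll l (pushS .m x q)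

theorem stepAux_pushAll (l : List Bool) : ∀ (q : TStmt G Λ) (v : Sig G) (i : List G)
    (m a b c : List Bool),
    TM2.stepAux (pushAll l q) v (toStk i ⟨m, a, b, c⟩) =
      TM2.stepAux q v (toStk i ⟨l ++ m, a, b, c⟩) := by
  induction l with
  | nil => intros; rfl
  | cons x l ih =>
    intro q v i m a b c
    rw [pushAll, ih, stepAux_pushS]; rfl

/-- Push the code of the symbol held in the state. -/
def dispatch [DecidableEq G] (cd : G → List Bool) (nxt : Λ) : List G → TStmt G Λ
  | [] => .halt
  | g :: gs => .branch (fun v => decide (v.2 = some g))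
      (pushAll (cd g) (.load (fun _ => (none, none)) (jmp (some nxt)))) (dispatch cd nxt gs)

theorem stepAux_dispatch [DecidableEq G] (cd : G → List Bool) (nxt : Λ) (g : G) (o : Option Bool)
    (i : List G) (m a b c : List Bool) : ∀ gs : List G, g ∈ gs →
    TM2.stepAux (dispatch cd nxt gs) (o, some g) (toStk i ⟨m, a, b, c⟩) =
      ⟨some nxt, (none, none), toStk i ⟨cd g ++ m, a, b, c⟩⟩ := by
  intro gs
  induction gs with
  | nil => intro h; simp at h
  | cons g' gs ih =>
    intro h
    by_cases e : g = g'
    · subst e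
      simp only [dispatch, TM2.stepAux, decide_true, cond_true]
      rw [stepAux_pushAll]
      simp only [TM2.stepAux, stepAux_jmp]
    · have h' : g ∈ gs := by simpa [e] using h
      simp only [dispatch, TM2.stepAux, Option.some.injEq, e, decide_false, cond_false]
      exact ih h'

/-- The whole machine: read the input, then run `p`. -/
def mach [DecidableEq G] (cd : G → List Bool) (gs : List G) (p : Prog) :
    Bool ⊕ Lbl p → TStmt G (Bool ⊕ Lbl p)
  | Sum.inl false => pushS .m false (jmp (some (Sum.inl true)))
  | Sum.inl true => .pop none (fun _ o => (none, (o : Option G)))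
      (.branch (fun v => v.2.isNone)
        (.load (fun _ => (none, none)) (jmp (some (Sum.inr (entry p)))))
        (dispatch cd (Sum.inl true) gs))
  | Sum.inr l => code p Sum.inr none l

theorem reach_read [DecidableEq G] [Enc G] (gs : List G) (hgs : ∀ g, g ∈ gs) (p : Prog)
    (i : List G) : ∀ acc : List G,
    Reach (mach (fun g => true :: (enc g).bits) gs p) (i.length + 1)
      ⟨some (Sum.inl true), (none, none), toStk i ⟨(enc acc).bits, [], [], []⟩⟩
      ⟨some (Sum.inr (entry p)), (none, none),
        toStk [] ⟨(enc (i.reverse ++ acc)).bits, [], [], []⟩⟩ := by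
  induction i with
  | nil =>
    intro acc
    refine Reach.one ?_
    simp only [mach, TM2.stepAux]
    erw [List.head?_nil, List.tail_nil, update_toStk_none]
    simp only [Option.isNone_none, cond_true, stepAux_jmp]
    rfl
  | cons g i ih =>
    intro acc
    rw [List.length_cons, Nat.add_comm _ 1, List.reverse_cons, List.append_assoc]
    refine Reach.trans (Reach.one ?_) (ih (g :: acc))
    simp only [mach, TM2.stepAux]
    erw [List.head?_cons, List.tail_cons, update_toStk_none]
    simp only [Option.isNone_some, cond_false]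
    erw [stepAux_dispatch _ _ g _ _ _ _ _ _ gs (hgs g)]
    rfl

end

/-- Decode the code of a list of bits onto stack `a`. -/
def outW : Prog :=
  .wh .m (.case .m .skip (.push .a false) (.seq popP (.seq popP (.push .a true))))

theorem exec_outW (l : List Bool) : ∀ a : List Bool,
    Exec outW ⟨(enc l).bits, a, [], []⟩ ⟨[], l.reverse ++ a, [], []⟩ (7 * l.length + 1) := by
  induction l with
  | nil => intro a; exact Exec.whF rfl
  | cons x l ih =>
    intro a
    rw [List.reverse_cons, List.append_assoc]
    cases x
    · refine Exec.mono (Exec.whT rfl (Exec.caseF rfl (Exec.push _ _ _)) (ih (false :: a))) ?_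
      simp; omega
    · refine Exec.mono (Exec.whT rfl (Exec.caseT rfl
        (Exec.seq (Exec.caseF rfl (Exec.skip _)) (Exec.seq (Exec.caseF rfl (Exec.skip _))
          (Exec.push _ _ _)))) (ih (true :: a))) ?_
      simp; omega

/-- Decode the code of a list of bits in place. -/
def outP : Prog := .seq outW (pour .a .m)

theorem exec_outP (l : List Bool) :
    Exec outP ⟨(enc l).bits, [], [], []⟩ ⟨l, [], [], []⟩ (9 * l.length + 2) := by
  have h1 := exec_outW l []
  have h2 := exec_pour .a .m (by decide) _ ⟨[], l.reverse ++ [], [], []⟩ rfl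
  have h := Exec.seq h1 h2
  simp at h
  exact h.mono (by omega)

/-- The bundled machine. -/
noncomputable def finTM (G : Type) [Fintype G] [DecidableEq G] [Enc G] (p : Prog) : FinTM2 :=
  @FinTM2.mk (Option R) inferInstance inferInstance none (some .m) (Gam G) (Bool ⊕ Lbl p)
    (Sum.inl false) (@instFintypeSum _ _ _ (lblFintype p)) (Sig G) (none, none) inferInstance
    (inferInstanceAs (Fintype G))
    (mach (fun g => true :: (enc g).bits) (Finset.univ : Finset G).toList p)

theorem initList_finTM (G : Type) [Fintype G] [DecidableEq G] [Enc G] (p : Prog) (i : List G) :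
    initList (finTM G p) i =
      (⟨some (Sum.inl false), (none, none), toStk i ⟨[], [], [], []⟩⟩ : TCfg G (Bool ⊕ Lbl p)) := by
  unfold initList
  congr 1
  funext k
  rcases k with _ | r
  · rfl
  · cases r <;> rfl

theorem haltList_finTM (G : Type) [Fintype G] [DecidableEq G] [Enc G] (p : Prog)
    (o : List Bool) :
    haltList (finTM G p) o =
      (⟨none, (none, none), toStk [] ⟨o, [], [], []⟩⟩ : TCfg G (Bool ⊕ Lbl p)) := by
  unfold haltList
  congr 1
  funext k
  rcases k with _ | r
  · rfl
  · cases r <;> rfl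

/-- A timed computation from the code of the reversed input to the code of the output gives a
machine of the library. -/
theorem exists_tm {α G : Type} [Fintype G] [Enc G] (ea : α → List G) (out : α → List Bool)
    {T : α → ℕ} (h : Cmp (fun a => enc (ea a).reverse) (fun a => enc (out a)) T) :
    ∃ tm : TM2ComputableAux G Bool, ∀ a, Nonempty (TM2OutputsInTime tm.tm
      (List.map tm.inputAlphabet.invFun (ea a))
      (some (List.map tm.outputAlphabet.invFun (out a)))
      ((ea a).length + T a + 9 * (out a).length + 4)) := by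
  classical
  obtain ⟨p, hp⟩ := h
  refine ⟨⟨finTM G (.seq p outP), Equiv.refl G, Equiv.refl Bool⟩, fun a => ?_⟩
  have e1 : List.map (Equiv.refl G).invFun (ea a) = ea a := List.map_id _
  have e2 : List.map (Equiv.refl Bool).invFun (out a) = out a := List.map_id _
  let M := mach (fun g : G => true :: (enc g).bits) (Finset.univ : Finset G).toList (.seq p outP)
  have r0 : Reach M 1 ⟨some (Sum.inl false), (none, none), toStk (ea a) ⟨[], [], [], []⟩⟩
      ⟨some (Sum.inl true), (none, none),
        toStk (ea a) ⟨(enc ([] : List G)).bits, [], [], []⟩⟩ := by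
    refine Reach.one ?_
    simp only [M, mach]
    rw [stepAux_pushS, stepAux_jmp]; rfl
  have r1 := reach_read (Finset.univ : Finset G).toList (fun g => by simp) (.seq p outP) (ea a) []
  have x1 := hp a []
  simp only [List.append_nil] at x1 r1
  have r2 := reach_of_exec M [] (Exec.seq x1 (exec_outP (out a))) Sum.inr none fun _ => rfl
  obtain ⟨k, hk, e⟩ := r0.trans (r1.trans r2)
  refine ⟨⟨⟨k, ?_⟩, by show k ≤ _; omega⟩⟩
  erw [e1, e2, initList_finTM, Option.map_some, haltList_finTM]
  exact e

end Crest.Agent.Lib.PT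
private theorem rz_f72692ab1e : type_of% @_root_.Crest.Agent.Lib.PT.dispatch.eq_def := @_root_.Crest.Agent.Lib.PT.dispatch.eq_def -- L33
private theorem rz_3407be1ddc : type_of% @_root_.Crest.Agent.Lib.PT.dispatch.eq_1 := @_root_.Crest.Agent.Lib.PT.dispatch.eq_1 -- L33
private theorem rz_d6cd795a0f : type_of% @_root_.Crest.Agent.Lib.PT.mach.eq_1 := @_root_.Crest.Agent.Lib.PT.mach.eq_1 -- L57
private theorem rz_b42cc29f7e : type_of% @_root_.Crest.Agent.Lib.PT.pushAll.eq_def := @_root_.Crest.Agent.Lib.PT.pushAll.eq_def -- L18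
private theorem rz_3907234076 : type_of% @_root_.Crest.Agent.Lib.PT.pushAll.eq_1 := @_root_.Crest.Agent.Lib.PT.pushAll.eq_1 -- L18
end

-- ▼ part PVb/Lib/PT/Bridge
section

/-!
# From `PT` to the complexity notions of the prelude
-/

set_option linter.dupNamespace false

namespace Crest.Agent.Lib.PT

open Turing Crest.Complexity Crest.DTime

theorem exists_sz_list_le (G : Type) [Fintype G] [Enc G] :
    ∃ M, ∀ l : List G, sz l ≤ l.length * M + 1 :=
  ⟨Finset.univ.sup (fun g : G => sz g) + 1, fun _ =>
    sz_list_le fun g _ => Finset.le_sup (f := fun g : G => sz g) (Finset.mem_univ g)⟩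

/-- A timed computation on codes gives a time-bounded machine. -/
theorem timeBoundComputable_of_cmp {α β G : Type} [Fintype G] [Enc G] (ea : α → List G)
    (eb : β → List Bool) (f : α → β) {T : α → ℕ}
    (h : Cmp (fun a => enc (ea a).reverse) (fun a => enc (eb (f a))) T) (t : ℕ → ℕ)
    (ht : ∀ a, (ea a).length + T a + 9 * (eb (f a)).length + 4 ≤ t (ea a).length) :
    TimeBoundComputable ea eb f t := by
  obtain ⟨tm, h⟩ := exists_tm ea (fun a => eb (f a)) h
  refine ⟨⟨tm, t, fun a => ?_⟩, fun _ => le_rfl⟩
  have := (h a).some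
  exact ⟨this.toEvalsTo, this.steps_le_m.trans (ht a)⟩

theorem polyTimeComputable_of_timeBound {α β Γ Γ' : Type} {ea : α → List Γ}
    {eb : β → List Γ'} {f : α → β} (P : Polynomial ℕ)
    (h : TimeBoundComputable ea eb f fun n => P.eval n) : PolyTimeComputable ea eb f := by
  obtain ⟨M, hM⟩ := h
  refine ⟨⟨M.toTM2ComputableAux, P, fun a => ?_⟩⟩
  have := M.outputsFun a
  exact ⟨this.toEvalsTo, this.steps_le_m.trans (hM _)⟩


/-- A `PT` map of presentations, fast on a set containing all presented inputs, runs in time
`c * (n + 1) ^ k`. -/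
theorem PT.timeBoundComputable' {α β G : Type} [Fintype G] [Enc G] (ea : α → List G)
    (eb : β → List Bool) (f : α → β) {P : List G → Prop} {F : Subtype P → List Bool}
    (hF : PT F) (hP : ∀ a, P (ea a)) (h : ∀ a, F ⟨ea a, hP a⟩ = eb (f a)) :
    ∃ c k, TimeBoundComputable ea eb f fun n => c * (n + 1) ^ k := by
  have h1 : PT fun l : {l : List G // P l.reverse} => F ⟨l.1.reverse, l.2⟩ :=
    hF.comp_sub (fun l => l.1.reverse) (by fun_prop) fun l => l.2
  have h2 := PB.length h1
  obtain ⟨T, hT, h1⟩ := h1
  have h3 : PB fun l : {l : List G // P l.reverse} =>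
      l.1.length + T l + 9 * (F ⟨l.1.reverse, l.2⟩).length + 4 := by fun_prop
  obtain ⟨c, k, h3⟩ := h3
  obtain ⟨M, hM⟩ := exists_sz_list_le G
  let g : α → {l : List G // P l.reverse} := fun a => ⟨(ea a).reverse, by simpa using hP a⟩
  have e : ∀ a, F ⟨(g a).1.reverse, (g a).2⟩ = eb (f a) := fun a => by
    rw [← h a]; congr 2; simp [g]
  refine ⟨c * (M + 1) ^ k, k, timeBoundComputable_of_cmp ea eb f
    (Cmp.congr (Cmp.reindex h1 g) (fun _ => rfl) fun a => congrArg Enc.enc (e a).symm) _ fun a => ?_⟩
  have h4 := h3 (g a)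
  have h5 : sz (g a) ≤ (M + 1) * ((ea a).length + 1) := by
    have := hM (ea a)
    rw [sz_subtype]
    simp only [g, sz_reverse]
    nlinarith
  have h6 := Nat.mul_le_mul_left c (Nat.pow_le_pow_left h5 k)
  simp only [e] at h4
  simp only [g, List.length_reverse] at h4
  rw [mul_pow, ← mul_assoc] at h6
  exact h4.trans h6

/-- A `PT` map of presentations, fast on a set containing all presented inputs, gives a
polynomial-time machine. -/
theorem PT.polyTimeComputable' {α β G : Type} [Fintype G] [Enc G] (ea : α → List G)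
    (eb : β → List Bool) (f : α → β) {P : List G → Prop} {F : Subtype P → List Bool}
    (hF : PT F) (hP : ∀ a, P (ea a)) (h : ∀ a, F ⟨ea a, hP a⟩ = eb (f a)) :
    PolyTimeComputable ea eb f := by
  obtain ⟨c, k, h⟩ := hF.timeBoundComputable' ea eb f hP h
  exact polyTimeComputable_of_timeBound (Polynomial.C c * (Polynomial.X + 1) ^ k) (by simpa using h)

/-- A `PT` map of presentations gives a polynomial-time machine. -/
theorem PT.polyTimeComputable {α β G : Type} [Fintype G] [Enc G] (ea : α → List G)
    (eb : β → List Bool) (f : α → β) {F : List G → List Bool}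
    (hF : PT F) (h : ∀ a, F (ea a) = eb (f a)) : PolyTimeComputable ea eb f :=
  (hF.restrict fun _ => True).polyTimeComputable' ea eb f (fun _ => trivial) h

/-- `PT` maps of bit strings are `PolyTime`. -/
theorem PT.polyTime {f : List Bool → List Bool} (hf : PT f) : PolyTime f :=
  hf.polyTimeComputable _ _ f fun _ => rfl












/-! ### Padding: time bounds above polynomial -/






end Crest.Agent.Lib.PT
end

-- ▼ part PVb/Lib/PT/Codes
section

/-!
# Polynomial time: writing and reading the bit-string codes of the prelude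

A parser is a map `List Bool → β × List Bool` returning the value read and the rest.
-/

set_option linter.dupNamespace false

namespace Crest.Agent.Lib.PT

open Crest.Enc

universe u v w x y

variable {α : Type u} {β : Type v} {γ : Type w} [Enc α] [Enc β] [Enc γ]

/-! ### Writers -/

@[fun_prop] theorem PT.natCode {n : α → ℕ} (hn : PT n) : PT fun a => natCode (n a) := by
  unfold Crest.Enc.natCode; fun_prop

@[fun_prop] theorem PT.intCode {z : α → ℤ} (hz : PT z) : PT fun a => intCode (z a) := by
  unfold Crest.Enc.intCode; fun_prop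

@[fun_prop] theorem PT.ratCode {q : α → ℚ} (hq : PT q) : PT fun a => ratCode (q a) := by
  unfold Crest.Enc.ratCode; fun_prop

@[fun_prop] theorem PT.listCode {l : α → List ℕ} (hl : PT l) : PT fun a => listCode (l a) := by
  unfold Crest.Enc.listCode; fun_prop

theorem length_natCode (n : ℕ) : (natCode n).length = 2 * n.size + 2 := by
  unfold natCode
  rw [← Nat.size_eq_bits_len]
  induction n.bits with
  | nil => rfl
  | cons b l ih => simp at ih ⊢; omega

theorem natCode_ne_nil (n : ℕ) : natCode n ≠ [] := by simp [natCode]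

/-! ### Readers -/

/-- The digits at the start of a string. -/
def natBits : List Bool → List Bool
  | true :: b :: r => b :: natBits r
  | _ => []

theorem length_natBits_le (l : List Bool) : (natBits l).length ≤ l.length := by
  fun_induction natBits l with
  | case1 b r ih => simp; omega
  | case2 => simp

theorem natBits_pt : PT natBits := by
  refine PT.linrec' (cont := fun l : List Bool => l.headD false = true ∧ ¬ l.tail = [])
    (next := fun l => l.tail.tail) (base := fun _ => [])
    (step := fun l c => l.tail.headD false :: c) (by fun_prop) (by fun_prop) (by fun_prop)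
    (by fun_prop) ?_ ?_ (μ := fun l => l.length) (by fun_prop) ?_
    (fun l _ => sz_sublist ((List.tail_sublist _).trans (List.tail_sublist _)))
    (PB.mono (g := fun l => 4 * l.length + 1) (by fun_prop) fun l => ?_)
  · rintro (_ | ⟨_ | _, _ | ⟨b, r⟩⟩) h <;> simp_all [natBits]
  · rintro (_ | ⟨_ | _, _ | ⟨b, r⟩⟩) h <;> simp_all [natBits]
  · rintro (_ | ⟨_ | _, _ | ⟨b, r⟩⟩) h <;> simp_all
  · have := sz_boolList_le (natBits l)
    have := length_natBits_le l
    omega

/-- Read one bit. -/
def parseBool (l : List Bool) : Bool × List Bool := (l.headD false, l.tail)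

/-- Read a number written by `natCode`. -/
def parseNat (l : List Bool) : ℕ × List Bool :=
  (ofBits (natBits l), l.drop (2 * (natBits l).length + 2))

/-- Read an integer written by `intCode`. -/
def parseInt (l : List Bool) : ℤ × List Bool :=
  (bif l.headD false then - ((parseNat l.tail).1 : ℤ) else ((parseNat l.tail).1 : ℤ),
    (parseNat l.tail).2)

/-- Read a rational written by `ratCode`. -/
def parseRat (l : List Bool) : ℚ × List Bool :=
  (mkRat (parseInt l).1 (parseNat (parseInt l).2).1, (parseNat (parseInt l).2).2)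

/-- Read two values. -/
def parsePair (p : List Bool → β × List Bool) (q : List Bool → γ × List Bool) (l : List Bool) :
    (β × γ) × List Bool := (((p l).1, (q (p l).2).1), (q (p l).2).2)

/-- Read `k` values. -/
def parseMany (p : List Bool → β × List Bool) : ℕ → List Bool → List β × List Bool
  | 0, l => ([], l)
  | k + 1, l => ((p l).1 :: (parseMany p k (p l).2).1, (parseMany p k (p l).2).2)

/-- Read `k` values with non-empty codes (`k` may be given in binary). -/
def parseN (p : List Bool → β × List Bool) (k : ℕ) (l : List Bool) : List β × List Bool :=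
  parseMany p (min k l.length) l

/-- Read a length, then that many values with non-empty codes. -/
def parseList (p : List Bool → β × List Bool) (l : List Bool) : List β × List Bool :=
  parseN p (parseNat l).1 (parseNat l).2

/-- Read a block of `true`s and the `false` after it. -/
def parseUnary (l : List Bool) : ℕ × List Bool :=
  ((l.takeWhile fun b => b).length, (l.dropWhile fun b => b).tail)

@[simp] theorem parseBool_cons (b : Bool) (r : List Bool) : parseBool (b :: r) = (b, r) := rfl

theorem natBits_natCode (n : ℕ) (r : List Bool) : natBits (natCode n ++ r) = n.bits := by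
  unfold natCode
  induction n.bits with
  | nil => rfl
  | cons b l ih => simpa [natBits] using ih

@[simp] theorem parseNat_natCode (n : ℕ) (r : List Bool) : parseNat (natCode n ++ r) = (n, r) := by
  rw [parseNat, natBits_natCode, ofBits_bits, Nat.size_eq_bits_len, ← length_natCode,
    List.drop_left]

@[simp] theorem parseNat_natCode' (n : ℕ) : parseNat (natCode n) = (n, []) := by
  simpa using parseNat_natCode n []

@[simp] theorem parseInt_intCode (z : ℤ) (r : List Bool) : parseInt (intCode z ++ r) = (z, r) := by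
  simp only [parseInt, intCode, List.cons_append, List.headD_cons, List.tail_cons,
    parseNat_natCode, Prod.mk.injEq, and_true]
  by_cases h : z < 0 <;> simp only [h, decide_true, decide_false, cond_true, cond_false] <;> omega

@[simp] theorem parseInt_intCode' (z : ℤ) : parseInt (intCode z) = (z, []) := by
  simpa using parseInt_intCode z []

@[simp] theorem parseRat_ratCode (q : ℚ) (r : List Bool) : parseRat (ratCode q ++ r) = (q, r) := by
  have : ratCode q ++ r = intCode q.num ++ (natCode q.den ++ r) := by simp [ratCode, intCode]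
  rw [this, parseRat, parseInt_intCode, parseNat_natCode, Rat.mkRat_self]

@[simp] theorem parseRat_ratCode' (q : ℚ) : parseRat (ratCode q) = (q, []) := by
  simpa using parseRat_ratCode q []

@[simp] theorem parseUnary_replicate (n : ℕ) (r : List Bool) :
    parseUnary (List.replicate n true ++ false :: r) = (n, r) := by
  induction n with
  | zero => rfl
  | succ n ih => simp [parseUnary, List.replicate_succ]


omit [Enc β] in
theorem parseMany_flatten {δ : Type w} {p : List Bool → β × List Bool} {code : δ → List Bool}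
    {val : δ → β} (xs : List δ) (h : ∀ x ∈ xs, ∀ r, p (code x ++ r) = (val x, r))
    (r : List Bool) :
    parseMany p xs.length ((xs.map code).flatten ++ r) = (xs.map val, r) := by
  induction xs with
  | nil => rfl
  | cons x xs ih =>
    simp only [List.length_cons, List.map_cons, List.flatten_cons, List.append_assoc, parseMany,
      h x (by simp), ih fun y hy => h y (by simp [hy])]

omit [Enc β] in
theorem length_le_length_flatten {code : β → List Bool} (xs : List β)
    (h : ∀ x ∈ xs, code x ≠ []) : xs.length ≤ (xs.map code).flatten.length := by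
  induction xs with
  | nil => simp
  | cons x xs ih =>
    have := List.length_pos_iff.2 (h x (by simp))
    have := ih fun y hy => h y (by simp [hy])
    simp only [List.length_cons, List.map_cons, List.flatten_cons, List.length_append]; omega

omit [Enc β] in
theorem parseN_flatten {δ : Type w} {p : List Bool → β × List Bool} {code : δ → List Bool}
    {val : δ → β} (xs : List δ) (h : ∀ x ∈ xs, ∀ r, p (code x ++ r) = (val x, r))
    (h' : ∀ x ∈ xs, code x ≠ []) (r : List Bool) :
    parseN p xs.length ((xs.map code).flatten ++ r) = (xs.map val, r) := by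
  have := length_le_length_flatten xs h'
  rw [parseN, min_eq_left (by rw [List.length_append]; omega), parseMany_flatten xs h]


omit [Enc β] in
theorem parseList_flatten {δ : Type w} {p : List Bool → β × List Bool} {code : δ → List Bool}
    {val : δ → β} (xs : List δ) (h : ∀ x ∈ xs, ∀ r, p (code x ++ r) = (val x, r))
    (h' : ∀ x ∈ xs, code x ≠ []) (r : List Bool) :
    parseList p (natCode xs.length ++ (xs.map code).flatten ++ r) = (xs.map val, r) := by
  rw [parseList, List.append_assoc, parseNat_natCode, parseN_flatten xs h h']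

@[simp] theorem parseList_listCode (l : List ℕ) (r : List Bool) :
    parseList parseNat (listCode l ++ r) = (l, r) := by
  simpa [listCode] using parseList_flatten (val := id) l (fun x _ => parseNat_natCode x)
    (fun x _ => natCode_ne_nil x) r

@[simp] theorem parseList_listCode' (l : List ℕ) : parseList parseNat (listCode l) = (l, []) := by
  simpa using parseList_listCode l []


/-- The rest returned by the parser is not longer than the input. -/
def Shrinks (p : List Bool → β × List Bool) : Prop := ∀ l, (p l).2.length ≤ l.length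

theorem shrinks_parseBool : Shrinks parseBool := fun l => by simp [parseBool]
theorem shrinks_parseNat : Shrinks parseNat := fun l => by simp [parseNat]
theorem shrinks_parseInt : Shrinks parseInt := fun l =>
  (shrinks_parseNat l.tail).trans (by simp)
theorem shrinks_parseRat : Shrinks parseRat := fun l =>
  (shrinks_parseNat _).trans (shrinks_parseInt l)

omit [Enc β] [Enc γ] in
theorem Shrinks.parsePair {p : List Bool → β × List Bool} {q : List Bool → γ × List Bool}
    (hp : Shrinks p) (hq : Shrinks q) : Shrinks (parsePair p q) := fun l => (hq _).trans (hp l)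

omit [Enc β] in
theorem Shrinks.parseMany {p : List Bool → β × List Bool} (hp : Shrinks p) (k : ℕ) :
    Shrinks (parseMany p k) := by
  induction k with
  | zero => exact fun _ => le_rfl
  | succ k ih => exact fun l => (ih _).trans (hp l)

omit [Enc β] in
theorem Shrinks.parseN {p : List Bool → β × List Bool} (hp : Shrinks p) (k : ℕ) :
    Shrinks (parseN p k) := fun l => hp.parseMany _ l

omit [Enc β] in
theorem Shrinks.parseList {p : List Bool → β × List Bool} (hp : Shrinks p) :
    Shrinks (parseList p) := fun l => (hp.parseN _ _).trans (shrinks_parseNat l)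

omit [Enc β] in
theorem length_parseMany (p : List Bool → β × List Bool) (k : ℕ) :
    ∀ l, (parseMany p k l).1.length = k := by
  induction k with
  | zero => intro l; rfl
  | succ k ih => intro l; simp [parseMany, ih]

omit [Enc β] in
theorem parseMany_succ' (p : List Bool → β × List Bool) (k : ℕ) : ∀ l, parseMany p (k + 1) l =
    ((parseMany p k l).1 ++ [(p (parseMany p k l).2).1], (p (parseMany p k l).2).2) := by
  induction k with
  | zero => intro l; rfl
  | succ k ih => intro l; rw [parseMany, ih]; rfl

omit [Enc β] in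
theorem mem_parseMany {p : List Bool → β × List Bool} (hp : Shrinks p) (k : ℕ) :
    ∀ l, ∀ x ∈ (parseMany p k l).1, ∃ l' : List Bool, l'.length ≤ l.length ∧ x = (p l').1 := by
  induction k with
  | zero => intro l x h; simp [parseMany] at h
  | succ k ih =>
    intro l x h
    rcases List.mem_cons.1 h with rfl | h
    · exact ⟨l, le_rfl, rfl⟩
    · obtain ⟨l', h1, h2⟩ := ih _ x h
      exact ⟨l', h1.trans (hp l), h2⟩

attribute [irreducible] parseBool parseNat parseInt parseRat parsePair parseMany parseN parseList
  parseUnary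

namespace PT

@[fun_prop] theorem parseBool {l : α → List Bool} (hl : PT l) : PT fun a => parseBool (l a) := by
  unfold Lib.PT.parseBool; fun_prop

@[fun_prop] theorem parseNat {l : α → List Bool} (hl : PT l) : PT fun a => parseNat (l a) := by
  have := natBits_pt.comp hl
  unfold Lib.PT.parseNat; fun_prop

@[fun_prop] theorem parseInt {l : α → List Bool} (hl : PT l) : PT fun a => parseInt (l a) := by
  unfold Lib.PT.parseInt; fun_prop

@[fun_prop] theorem parseRat {l : α → List Bool} (hl : PT l) : PT fun a => parseRat (l a) := by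
  unfold Lib.PT.parseRat; fun_prop

@[fun_prop] theorem parseUnary {l : α → List Bool} (hl : PT l) :
    PT fun a => parseUnary (l a) := by
  unfold Lib.PT.parseUnary; fun_prop

@[fun_prop] theorem parsePair {p : α → List Bool → β × List Bool}
    {q : α → List Bool → γ × List Bool} {l : α → List Bool}
    (hp : PT fun x : α × List Bool => p x.1 x.2) (hq : PT fun x : α × List Bool => q x.1 x.2)
    (hl : PT l) : PT fun a => parsePair (p a) (q a) (l a) := by
  have h1 : PT fun a => p a (l a) := hp.comp_eq (fun a => (a, l a)) (by fun_prop)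
  have h2 : PT fun a => q a (p a (l a)).2 := hq.comp_eq (fun a => (a, (p a (l a)).2)) (by fun_prop)
  unfold Lib.PT.parsePair
  exact (h1.fst.pair h2.fst).pair h2.snd

theorem parseMany {p : α → List Bool → β × List Bool} {k : α → ℕ} {l : α → List Bool}
    (hp : PT fun x : α × List Bool => p x.1 x.2) (hs : ∀ a, Shrinks (p a)) (hk : PT k)
    (hb : PB k) (hl : PT l) : PT fun a => parseMany (p a) (k a) (l a) := by
  obtain ⟨c, e, hc⟩ := PB.sz hp.fst
  have h1 : PT fun x : α × ℕ × List β × List Bool => p x.1 x.2.2.2 :=
    hp.comp_eq (fun x => (x.1, x.2.2.2)) (by fun_prop)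
  refine nat_rec (F := fun a i => Lib.PT.parseMany (p a) i (l a)) (z := fun a => ([], l a))
    (f := fun a _ c => (c.1 ++ [(p a c.2).1], (p a c.2).2)) hk hb (by fun_prop) (by fun_prop)
    (fun _ => by rw [Lib.PT.parseMany]) (fun a i _ => parseMany_succ' _ _ _)
    (B := fun a => k a * (c * (sz a + 4 * (l a).length + 2) ^ e + 1) + 4 * (l a).length + 3)
    (by fun_prop) fun a i hi => ?_
  have g1 := sz_list_le (B := c * (sz a + 4 * (l a).length + 2) ^ e)
    (l := (Lib.PT.parseMany (p a) i (l a)).1) fun x hx => by
      obtain ⟨l', h1, rfl⟩ := mem_parseMany (hs a) _ _ x hx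
      refine (hc (a, l')).trans (Nat.mul_le_mul_left _ (Nat.pow_le_pow_left ?_ _))
      have := sz_boolList_le l'
      rw [sz_mk]; omega
  have g2 := sz_boolList_le (Lib.PT.parseMany (p a) i (l a)).2
  have g3 := (hs a).parseMany i (l a)
  rw [length_parseMany] at g1
  have g4 := Nat.mul_le_mul_right (c * (sz a + 4 * (l a).length + 2) ^ e + 1) hi
  rw [sz_prod]; omega

theorem parseN {p : α → List Bool → β × List Bool} {k : α → ℕ} {l : α → List Bool}
    (hp : PT fun x : α × List Bool => p x.1 x.2) (hs : ∀ a, Shrinks (p a)) (hk : PT k)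
    (hl : PT l) : PT fun a => parseN (p a) (k a) (l a) := by
  unfold Lib.PT.parseN
  exact parseMany hp hs (hk.nat_min hl.length) (PB.min_right _ (PB.length hl)) hl

theorem parseList {p : α → List Bool → β × List Bool} {l : α → List Bool}
    (hp : PT fun x : α × List Bool => p x.1 x.2) (hs : ∀ a, Shrinks (p a))
    (hl : PT l) : PT fun a => parseList (p a) (l a) := by
  unfold Lib.PT.parseList
  exact parseN hp hs hl.parseNat.fst hl.parseNat.snd

end PT

/-! ### Masks, tables and graphs -/

/-- Cut a list into `k` consecutive blocks of length `n`. -/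
def chunks (n k : ℕ) (l : List β) : List (List β) :=
  (List.range k).map fun i => (l.drop (i * n)).take n

@[fun_prop] theorem PT.chunks {n k : α → ℕ} {l : α → List β} (hn : PT n) (hk : PT k) (hb : PB k)
    (hl : PT l) : PT fun a => chunks (n a) (k a) (l a) := by
  unfold Lib.PT.chunks; fun_prop






/-- Read a table written by `tableCode`, as the list of its rows. -/
def parseTable (l : List Bool) : List (List ℚ) × List Bool :=
  parseN (parseN parseRat (parseNat l).1) (parseNat l).1 (parseNat l).2



@[fun_prop] theorem PT.parseTable {l : α → List Bool} (hl : PT l) :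
    PT fun a => parseTable (l a) :=
  PT.parseN (p := fun a => Lib.PT.parseN Lib.PT.parseRat (Lib.PT.parseNat (l a)).1)
    (PT.parseN (p := fun _ => Lib.PT.parseRat) (by fun_prop) (fun _ => shrinks_parseRat)
      (by fun_prop) (by fun_prop)) (fun _ => shrinks_parseRat.parseN _) (by fun_prop)
    (by fun_prop)

/-- Read a graph written by `graphCode`, as the list of the rows of its adjacency table. -/
def parseGraph (l : List Bool) : List (List Bool) × List Bool :=
  parseN (parseN parseBool (parseNat l).1) (parseNat l).1 (parseNat l).2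



@[fun_prop] theorem PT.parseGraph {l : α → List Bool} (hl : PT l) :
    PT fun a => parseGraph (l a) :=
  PT.parseN (p := fun a => Lib.PT.parseN Lib.PT.parseBool (Lib.PT.parseNat (l a)).1)
    (PT.parseN (p := fun _ => Lib.PT.parseBool) (by fun_prop) (fun _ => shrinks_parseBool)
      (by fun_prop) (by fun_prop)) (fun _ => shrinks_parseBool.parseN _) (by fun_prop)
    (by fun_prop)

attribute [irreducible] parseTable parseGraph

end Crest.Agent.Lib.PT
private theorem rz_0f481070b2 : type_of% @_root_.Crest.Agent.Lib.PT.natBits.eq_def := @_root_.Crest.Agent.Lib.PT.natBits.eq_def -- L50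
private theorem rz_5f3a6b63f2 : type_of% @_root_.Crest.Agent.Lib.PT.natBits.eq_1 := @_root_.Crest.Agent.Lib.PT.natBits.eq_1 -- L50
private theorem rz_8e98863d37 : type_of% @_root_.Crest.Agent.Lib.PT.natBits.induct_unfolding := @_root_.Crest.Agent.Lib.PT.natBits.induct_unfolding -- L50
private theorem rz_973a2916f7 : type_of% @_root_.Crest.Agent.Lib.PT.parseMany.eq_def := @_root_.Crest.Agent.Lib.PT.parseMany.eq_def -- L94
private theorem rz_9fb4575cbe : type_of% @_root_.Crest.Agent.Lib.PT.parseMany.eq_1 := @_root_.Crest.Agent.Lib.PT.parseMany.eq_1 -- L94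
end

-- ▼ part PVb/Lib/PT/Dec

/-!
# Polynomial time: generic bit codes of encoded types, certificates for NP
-/

set_option linter.dupNamespace false

namespace Crest.Agent.Lib.PT

universe u v w

variable {α : Type u} {β : Type v} {γ : Type w}

/-- One round of writing trees as bits. -/
def bitsStep (s : List V × List Bool) : List V × List Bool :=
  if s.1.headD .nil = .nil then (s.1.tail, false :: s.2)
  else ((s.1.headD .nil).left :: (s.1.headD .nil).right :: s.1.tail, true :: s.2)

theorem bitsStep_loop (B : ℕ) (v : V) : ∀ (l : List V) (acc : List Bool) (t : List V × List Bool)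
    (n : ℕ), 5 * v.size + sz l + sz acc + 5 ≤ B →
    Loop (fun s => ¬ s.1 = []) bitsStep B (l, v.bits.reverse ++ acc) t n →
    Loop (fun s => ¬ s.1 = []) bitsStep B (v :: l, acc) t (n + v.size) := by
  have hb : sz true = 3 := rfl
  induction v with
  | nil =>
    intro l acc t n hB h
    exact Loop.step (by simp) (by simp at hB ⊢; omega) (by simpa [bitsStep] using h)
  | node x y ihx ihy =>
    intro l acc t n hB h
    refine Loop.step (by simp) (by simp at hB ⊢; omega) ?_
    simp only [bitsStep, List.headD_cons, reduceCtorEq, if_false, V.left_node, V.right_node,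
      List.tail_cons]
    simp only [V.size_node] at hB
    have p1 := y.size_pos
    have p2 := sz_boolList_le x.bits.reverse
    have p3 := sz_append x.bits.reverse (true :: acc)
    simp only [List.length_reverse, V.length_bits, sz_cons] at p2 p3
    have h2 := ihy l (x.bits.reverse ++ true :: acc) t n (by omega) (by simpa using h)
    have h1 := ihx (y :: l) (true :: acc) t _ (by simp; omega) h2
    exact h1.mono (by show _ ≤ n + (x.size + y.size); omega)

@[fun_prop] theorem PT.bitsV [Enc α] {f : α → V} (hf : PT f) : PT fun a => (f a).bits := by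
  have h := PT.loop (cont := fun s : List V × List Bool => ¬ s.1 = []) (next := bitsStep)
    (by fun_prop) (PT.restrict (by unfold bitsStep; fun_prop) _) (s₀ := fun a => ([f a], []))
    (out := fun a => ([], (f a).bits.reverse ++ [])) (by fun_prop)
    (N := fun a => 0 + sz (f a)) (B := fun a => 5 * sz (f a) + 7) (by fun_prop) (by fun_prop)
    fun a => bitsStep_loop _ _ _ _ _ _ (by simp) (Loop.stop (by simp) (by
      have := sz_boolList_le (f a).bits
      simp at this ⊢; omega))
  exact h.snd.reverse.of_eq fun a => by simp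

/-- One round of reading trees from bits (right to left). -/
def unbitsStep (b : Bool) (st : List V) : List V :=
  bif b then V.node (st.headD .nil) (st.tail.headD .nil) :: st.tail.tail else V.nil :: st

/-- Read a tree from its prefix code. -/
def unbits (l : List Bool) : V := (l.foldr unbitsStep []).headD .nil

theorem foldr_unbitsStep (v : V) : ∀ r : List Bool,
    (v.bits ++ r).foldr unbitsStep [] = v :: r.foldr unbitsStep [] := by
  induction v with
  | nil => intro r; rfl
  | node x y ihx ihy =>
    intro r
    rw [V.bits_node, List.cons_append, List.append_assoc, List.foldr_cons, ihx, ihy]; rfl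

@[simp] theorem unbits_bits (v : V) : unbits v.bits = v := by
  have := foldr_unbitsStep v []
  rw [List.append_nil] at this
  rw [unbits, this]; rfl

@[fun_prop] theorem PT.unbits [Enc α] {l : α → List Bool} (hl : PT l) :
    PT fun a => unbits (l a) := by
  refine PT.headD (PT.foldr_grow (f := fun _ => unbitsStep) hl (PT.const [])
    (by unfold unbitsStep; fun_prop) (G := fun _ => 4) (by fun_prop) ?_) (PT.const _)
  rintro a (_ | _) (_ | ⟨x, _ | ⟨y, st⟩⟩) _ <;> simp [unbitsStep] <;> omega

/-- Encoded types with a total polynomial-time decoder. -/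
class Dec (α : Type u) [Enc α] where
  /-- the decoder -/
  dec : V → α
  /-- it inverts the code -/
  dec_enc : ∀ a : α, dec (enc a) = a
  /-- it is fast -/
  pt : PT dec

export Dec (dec dec_enc)

attribute [simp] dec_enc

@[fun_prop] theorem PT.dec [Enc α] [Enc β] [Dec β] {f : α → V} (hf : PT f) :
    PT fun a => (dec (f a) : β) := Dec.pt.comp hf

instance decV : Dec V := ⟨id, fun _ => rfl, PT.id⟩

instance decUnit : Dec PUnit.{u + 1} := ⟨fun _ => ⟨⟩, fun _ => rfl, PT.const _⟩

instance decBool : Dec Bool :=
  ⟨fun v => decide (v ≠ .nil), fun b => by cases b <;> rfl, by fun_prop⟩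

instance decProd [Enc α] [Enc β] [Dec α] [Dec β] : Dec (α × β) :=
  ⟨fun v => (dec v.left, dec v.right), fun p => by simp [enc_prod], by fun_prop⟩

instance decList [Enc α] [Dec α] : Dec (List α) :=
  ⟨fun v => v.toList.map dec, fun l => by
    induction l with
    | nil => rfl
    | cons a l ih => rw [enc_cons, V.toList, List.map_cons, ih, dec_enc], by fun_prop⟩

instance decOption [Enc α] [Dec α] : Dec (Option α) :=
  ⟨fun v => (dec v : List α).head?, fun o => by rw [enc_option, dec_enc]; cases o <;> rfl,
    by fun_prop⟩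

instance decSum [Enc α] [Enc β] [Dec α] [Dec β] : Dec (α ⊕ β) :=
  ⟨fun v => if v.left = .nil then Sum.inl (dec v.right) else Sum.inr (dec v.right),
    fun s => by cases s <;> simp [enc_inl, enc_inr, enc_false, enc_true], by fun_prop⟩

instance decNat : Dec ℕ :=
  ⟨fun v => ofBits (dec v), fun n => by rw [enc_nat, dec_enc, ofBits_bits], by fun_prop⟩

instance decUn : Dec Un :=
  ⟨fun v => ⟨(dec v : List Unit).length⟩, fun u => by rw [enc_un, dec_enc]; simp, by fun_prop⟩

instance decInt : Dec ℤ :=
  ⟨fun v => bif (dec v.left : Bool) then - ((dec v.right : ℕ) : ℤ) else ((dec v.right : ℕ) : ℤ),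
    fun z => by
      simp only [enc_int, enc_mk, V.left_node, V.right_node, dec_enc]
      by_cases h : z < 0 <;> simp only [h, decide_true, decide_false, cond_true, cond_false] <;>
        omega, by fun_prop⟩

instance decRat : Dec ℚ :=
  ⟨fun v => mkRat (dec v.left) (dec v.right), fun q => by
    simp only [enc_rat, enc_mk, V.left_node, V.right_node, dec_enc, Rat.mkRat_self], by fun_prop⟩

/-- The generic bit code; its length is `sz a`. -/
def toBits [Enc α] (a : α) : List Bool := (enc a).bits

/-- The generic total decoder of bit strings. -/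
def fromBits [Enc α] [Dec α] (w : List Bool) : α := dec (unbits w)

@[simp] theorem fromBits_toBits [Enc α] [Dec α] (a : α) : fromBits (toBits a) = a := by
  simp [fromBits, toBits]

@[simp] theorem length_toBits [Enc α] (a : α) : (toBits a).length = sz a := V.length_bits _

@[fun_prop] theorem PT.toBits [Enc α] [Enc β] {f : α → β} (hf : PT f) :
    PT fun a => toBits (f a) := hf.enc.bitsV

@[fun_prop] theorem PT.fromBits [Enc α] [Enc β] [Dec β] {f : α → List Bool} (hf : PT f) :
    PT fun a => (fromBits (f a) : β) := hf.unbits.dec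


end Crest.Agent.Lib.PT
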